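import Mathlib

/-!
Gluing of a phase on a periodic grid (P110, module M11): from node values `v k` (mod 1) and
node slopes `s k` we build a `C¹` phase `Psi` with slope `omega` between `A` and `B + 2 M`,
with `omega` Lipschitz. On a cell whose data come from one quadratic phase it reproduces it.
-/

namespace Vale.Agent.P110.Curve

open MeasureTheory

/-- A function Lipschitz on every `[k, k+1]` is Lipschitz. -/
theorem lipschitz_of_cells {g : ℝ → ℝ} {K : ℝ}
    (h : ∀ k : ℤ, ∀ x y : ℝ, (k : ℝ) ≤ x → x ≤ y → y ≤ k + 1 → |g y - g x| ≤ K * (y - x))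
    (x y : ℝ) : |g y - g x| ≤ K * |y - x| := by
  have key : ∀ n : ℕ, ∀ a b : ℝ, a ≤ b → ⌊b⌋ ≤ ⌊a⌋ + n → |g b - g a| ≤ K * (b - a) := by
    intro n
    induction n with
    | zero =>
      intro a b hab hfl
      have h1 := Int.floor_le a
      have h2 := Int.lt_floor_add_one b
      have h3 : (⌊b⌋ : ℝ) ≤ (⌊a⌋ : ℝ) := by exact_mod_cast (by simpa using hfl)
      exact h ⌊a⌋ a b h1 hab (by linarith)
    | succ n ih =>
      intro a b hab hfl
      by_cases hb : ⌊b⌋ ≤ ⌊a⌋ + n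
      · exact ih a b hab hb
      · have h1 := Int.floor_le a
        have h2 := Int.lt_floor_add_one a
        have h3 : ((⌊a⌋ + 1 : ℤ) : ℝ) ≤ b :=
          (Int.cast_le.2 (by omega : ⌊a⌋ + 1 ≤ ⌊b⌋)).trans (Int.floor_le b)
        have e1 := ih ((⌊a⌋ + 1 : ℤ) : ℝ) b h3 (by rw [Int.floor_intCast]; push_cast at hfl; omega)
        have e2 := h ⌊a⌋ a ((⌊a⌋ + 1 : ℤ) : ℝ) h1 (by push_cast; linarith) (by push_cast; rfl)
        calc |g b - g a| ≤ |g b - g ((⌊a⌋ + 1 : ℤ) : ℝ)| + |g ((⌊a⌋ + 1 : ℤ) : ℝ) - g a| :=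
              abs_sub_le _ _ _
          _ ≤ K * (b - a) := by linarith
  rcases le_total x y with hxy | hxy
  · have hf : ⌊x⌋ ≤ ⌊y⌋ := Int.floor_le_floor hxy
    rw [abs_of_nonneg (sub_nonneg.2 hxy)]
    exact key (⌊y⌋ - ⌊x⌋).toNat x y hxy (by omega)
  · have hf : ⌊y⌋ ≤ ⌊x⌋ := Int.floor_le_floor hxy
    rw [abs_sub_comm, abs_sub_comm y x, abs_of_nonneg (sub_nonneg.2 hxy)]
    exact key (⌊x⌋ - ⌊y⌋).toNat y x hxy (by omega)

/-- Linear interpolation of `s` plus a bump `c k * f * (1 - f)` on each cell. -/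
noncomputable def interp (s c : ℤ → ℝ) (t : ℝ) : ℝ :=
  (1 - Int.fract t) * s ⌊t⌋ + Int.fract t * s (⌊t⌋ + 1) +
    c ⌊t⌋ * (Int.fract t * (1 - Int.fract t))

theorem interp_cell (s c : ℤ → ℝ) (k : ℤ) {t : ℝ} (h1 : (k : ℝ) ≤ t) (h2 : t ≤ k + 1) :
    interp s c t = (1 - (t - k)) * s k + (t - k) * s (k + 1) + c k * ((t - k) * (1 - (t - k))) := by
  rcases h2.lt_or_eq with h2 | h2
  · have hf : ⌊t⌋ = k := Int.floor_eq_iff.2 ⟨h1, h2⟩
    have hfr : Int.fract t = t - k := by rw [Int.fract, hf]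
    rw [interp, hf, hfr]
  · have hf : ⌊t⌋ = k + 1 := Int.floor_eq_iff.2 ⟨by push_cast; linarith, by push_cast; linarith⟩
    have hfr : Int.fract t = 0 := by rw [Int.fract, hf, h2]; push_cast; ring
    rw [interp, hf, hfr, h2]
    ring

theorem interp_lipschitz {s c : ℤ → ℝ} {K : ℝ}
    (h : ∀ k, |s (k + 1) - s k| + |c k| ≤ K) (x y : ℝ) :
    |interp s c y - interp s c x| ≤ K * |y - x| := by
  refine lipschitz_of_cells (fun k a b ha hab hb => ?_) x y
  rw [interp_cell s c k ha (hab.trans hb), interp_cell s c k (ha.trans hab) hb,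
    show (1 - (b - k)) * s k + (b - k) * s (k + 1) + c k * ((b - k) * (1 - (b - k))) -
      ((1 - (a - k)) * s k + (a - k) * s (k + 1) + c k * ((a - k) * (1 - (a - k)))) =
      (b - a) * ((s (k + 1) - s k) + c k * (1 - (a - k) - (b - k))) by ring,
    abs_mul, abs_of_nonneg (sub_nonneg.2 hab), mul_comm]
  refine mul_le_mul_of_nonneg_right ((abs_add_le _ _).trans ?_) (sub_nonneg.2 hab)
  have hm : |1 - (a - (k : ℝ)) - (b - k)| ≤ 1 := abs_le.2 ⟨by linarith, by linarith⟩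
  rw [abs_mul]
  exact (add_le_add le_rfl (mul_le_of_le_one_right (abs_nonneg _) hm)).trans (h k)

/-- Mismatch of the node values on cell `k`, reduced mod 1. -/
noncomputable def mismatch (M : ℕ) (v s : ℤ → ℝ) (k : ℤ) : ℝ :=
  Int.fract (v (k + 1) - v k - (s k + s (k + 1)) / (2 * M))

/-- Bump height. -/
noncomputable def bump (M : ℕ) (v s : ℤ → ℝ) (k : ℤ) : ℝ := 6 * M * mismatch M v s k

/-- The glued slope. -/
noncomputable def slope (M : ℕ) (v s : ℤ → ℝ) (x : ℝ) : ℝ :=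
  interp s (bump M v s) (M * x)

/-- The glued phase. -/
noncomputable def phase (M : ℕ) (v s : ℤ → ℝ) (x : ℝ) : ℝ :=
  v 0 + ∫ u in (0 : ℝ)..x, slope M v s u

theorem mismatch_nonneg (M : ℕ) (v s : ℤ → ℝ) (k : ℤ) : 0 ≤ mismatch M v s k :=
  Int.fract_nonneg _

theorem mismatch_lt_one (M : ℕ) (v s : ℤ → ℝ) (k : ℤ) : mismatch M v s k < 1 :=
  Int.fract_lt_one _

section

variable {M : ℕ} {v s : ℤ → ℝ} {A B : ℝ}

theorem slope_mem (hs : ∀ k, A ≤ s k ∧ s k ≤ B) (x : ℝ) :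
    A ≤ slope M v s x ∧ slope M v s x ≤ B + 2 * M := by
  unfold slope interp
  set t : ℝ := M * x
  set f := Int.fract t
  have h0 : (0 : ℝ) ≤ f := Int.fract_nonneg t
  have h1 : f ≤ 1 := (Int.fract_lt_one t).le
  have hM : (0 : ℝ) ≤ (M : ℝ) := Nat.cast_nonneg M
  have hc := mismatch_nonneg M v s ⌊t⌋
  have hc' := (mismatch_lt_one M v s ⌊t⌋).le
  have hb : 0 ≤ bump M v s ⌊t⌋ := mul_nonneg (mul_nonneg (by norm_num) hM) hc
  have hb' : bump M v s ⌊t⌋ ≤ 6 * M := mul_le_of_le_one_right (by positivity) hc'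
  have hf : f * (1 - f) ≤ 1 / 4 := by nlinarith [sq_nonneg (f - 1 / 2)]
  have hf0 : 0 ≤ f * (1 - f) := mul_nonneg h0 (by linarith)
  have p1 := mul_le_mul_of_nonneg_left (hs ⌊t⌋).1 (sub_nonneg.2 h1)
  have p2 := mul_le_mul_of_nonneg_left (hs (⌊t⌋ + 1)).1 h0
  have q1 := mul_le_mul_of_nonneg_left (hs ⌊t⌋).2 (sub_nonneg.2 h1)
  have q2 := mul_le_mul_of_nonneg_left (hs (⌊t⌋ + 1)).2 h0
  have r1 : bump M v s ⌊t⌋ * (f * (1 - f)) ≤ 6 * M * (1 / 4) :=
    mul_le_mul hb' hf hf0 (by positivity)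
  have r0 : 0 ≤ bump M v s ⌊t⌋ * (f * (1 - f)) := mul_nonneg hb hf0
  constructor <;> linarith

theorem slope_lipschitz (hs : ∀ k, A ≤ s k ∧ s k ≤ B) (x y : ℝ) :
    |slope M v s y - slope M v s x| ≤ ((B - A) * M + 6 * (M : ℝ) ^ 2) * |y - x| := by
  refine (interp_lipschitz (K := B - A + 6 * M) (fun k => ?_) _ _).trans_eq ?_
  · have h1 : |s (k + 1) - s k| ≤ B - A :=
      abs_le.2 ⟨by linarith [hs k, hs (k + 1)], by linarith [hs k, hs (k + 1)]⟩
    have h2 : |bump M v s k| ≤ 6 * M := by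
      rw [bump, abs_of_nonneg (mul_nonneg (by positivity) (mismatch_nonneg M v s k))]
      exact mul_le_of_le_one_right (by positivity) (mismatch_lt_one M v s k).le
    linarith
  · rw [← mul_sub, abs_mul, Nat.abs_cast]
    ring

theorem continuous_slope (hs : ∀ k, A ≤ s k ∧ s k ≤ B) : Continuous (slope M v s) := by
  have h : LipschitzWith ((B - A) * M + 6 * (M : ℝ) ^ 2).toNNReal (slope M v s) :=
    LipschitzWith.of_dist_le' fun a b => by
      simpa [Real.dist_eq] using slope_lipschitz hs b a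
  exact h.continuous

theorem hasDerivAt_phase (hs : ∀ k, A ≤ s k ∧ s k ≤ B) (x : ℝ) :
    HasDerivAt (phase M v s) (slope M v s x) x :=
  ((continuous_slope hs).integral_hasStrictDerivAt 0 x).hasDerivAt.const_add (v 0)

theorem phase_cell (hM : 0 < M) (hs : ∀ k, A ≤ s k ∧ s k ≤ B) (k : ℤ) {t : ℝ} (ht0 : 0 ≤ t)
    (ht1 : t ≤ 1 / M) :
    phase M v s ((k : ℝ) / M + t) = phase M v s ((k : ℝ) / M) + s k * t +
      (s (k + 1) - s k) * M * t ^ 2 / 2 +
      bump M v s k * (M * t ^ 2 / 2 - (M : ℝ) ^ 2 * t ^ 3 / 3) := by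
  have hM' : (0 : ℝ) < M := Nat.cast_pos.2 hM
  let G : ℝ → ℝ := fun u => phase M v s ((k : ℝ) / M + u) - (s k * u +
    (s (k + 1) - s k) * M * u ^ 2 / 2 + bump M v s k * (M * u ^ 2 / 2 - (M : ℝ) ^ 2 * u ^ 3 / 3))
  have hG : ∀ u ∈ Set.Icc (0 : ℝ) (1 / M), HasDerivAt G 0 u := by
    intro u hu
    have e1 : ((k : ℝ)) ≤ M * ((k : ℝ) / M + u) := by
      rw [mul_add, mul_div_cancel₀ _ hM'.ne']
      nlinarith [hu.1]
    have e2 : M * ((k : ℝ) / M + u) ≤ k + 1 := by
      rw [mul_add, mul_div_cancel₀ _ hM'.ne']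
      have := (le_div_iff₀ hM').1 hu.2
      linarith
    have hp := (hasDerivAt_phase (v := v) (M := M) hs ((k : ℝ) / M + u)).comp_const_add
      ((k : ℝ) / M) u
    have hid := hasDerivAt_id u
    have hq : HasDerivAt (fun u : ℝ => s k * u + (s (k + 1) - s k) * M * u ^ 2 / 2 +
        bump M v s k * (M * u ^ 2 / 2 - (M : ℝ) ^ 2 * u ^ 3 / 3))
        (s k + (s (k + 1) - s k) * M * u + bump M v s k * (M * u - (M : ℝ) ^ 2 * u ^ 2)) u := by
      have := ((hid.const_mul (s k)).fun_add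
        (((hasDerivAt_pow 2 u).const_mul ((s (k + 1) - s k) * M)).div_const 2)).fun_add
        (((((hasDerivAt_pow 2 u).const_mul (M : ℝ)).div_const 2).fun_sub
          (((hasDerivAt_pow 3 u).const_mul ((M : ℝ) ^ 2)).div_const 3)).const_mul (bump M v s k))
      exact this.congr_deriv (by push_cast; ring)
    refine (hp.fun_sub hq).congr_deriv ?_
    rw [slope, interp_cell s _ k e1 e2, mul_add, mul_div_cancel₀ _ hM'.ne']
    ring
  have := constant_of_has_deriv_right_zero (f := G)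
    (fun u hu => (hG u hu).continuousAt.continuousWithinAt)
    (fun u hu => (hG u (Set.Ico_subset_Icc_self hu)).hasDerivWithinAt) t ⟨ht0, ht1⟩
  simp only [G, add_zero, mul_zero, zero_pow, ne_eq, OfNat.ofNat_ne_zero, not_false_eq_true,
    zero_div, sub_zero] at this
  linarith

theorem phase_succ (hM : 0 < M) (hs : ∀ k, A ≤ s k ∧ s k ≤ B) (k : ℤ) :
    phase M v s (((k + 1 : ℤ) : ℝ) / M) =
      phase M v s ((k : ℝ) / M) + (s k + s (k + 1)) / (2 * M) + mismatch M v s k := by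
  have hM' : (0 : ℝ) < M := Nat.cast_pos.2 hM
  rw [show ((k + 1 : ℤ) : ℝ) / M = (k : ℝ) / M + 1 / M by push_cast; ring,
    phase_cell hM hs k (by positivity) le_rfl, bump]
  field_simp
  ring

theorem phase_node (hM : 0 < M) (hs : ∀ k, A ≤ s k ∧ s k ≤ B) (k : ℤ) :
    ∃ n : ℤ, phase M v s ((k : ℝ) / M) = v k + n := by
  induction k using Int.induction_on with
  | zero => exact ⟨0, by simp [phase]⟩
  | succ j ih =>
    obtain ⟨n, hn⟩ := ih
    refine ⟨n - ⌊v ((j : ℤ) + 1) - v j - (s j + s ((j : ℤ) + 1)) / (2 * M)⌋, ?_⟩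
    rw [phase_succ hM hs, hn, mismatch, Int.fract]
    push_cast
    ring
  | pred j ih =>
    obtain ⟨n, hn⟩ := ih
    refine ⟨n + ⌊v (-(j : ℤ) - 1 + 1) - v (-(j : ℤ) - 1) -
      (s (-(j : ℤ) - 1) + s (-(j : ℤ) - 1 + 1)) / (2 * M)⌋, ?_⟩
    have e := phase_succ (v := v) hM hs (-(j : ℤ) - 1)
    rw [sub_add_cancel, hn, mismatch, Int.fract, sub_add_cancel] at e
    rw [sub_add_cancel]
    push_cast at e ⊢
    linarith

end

/-- **Gluing lemma.** -/
theorem glue (M : ℕ) (hM : 0 < M) (v s : ℤ → ℝ) (A B : ℝ) (hs : ∀ k, A ≤ s k ∧ s k ≤ B)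
    (hvper : ∀ k, ∃ n : ℤ, v (k + M) = v k + n) (hsper : ∀ k, s (k + M) = s k)
    (hvodd : ∀ k, ∃ n : ℤ, v (-k) + v k = n) (hseven : ∀ k, s (-k) = s k) :
    ∃ Psi omega : ℝ → ℝ,
      (∀ x, HasDerivAt Psi (omega x) x) ∧
      (∀ x, A ≤ omega x ∧ omega x ≤ B + 2 * M) ∧
      (∀ x y, |omega y - omega x| ≤ ((B - A) * M + 6 * (M : ℝ) ^ 2) * |y - x|) ∧
      (∀ x, ∃ n : ℤ, Psi (x + 1) = Psi x + n) ∧
      (∀ x, ∃ n : ℤ, Psi (-x) + Psi x = n) ∧
      (∀ k : ℤ, omega ((k : ℝ) / M) = s k ∧ ∃ n : ℤ, Psi ((k : ℝ) / M) = v k + n) ∧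
      (∀ k : ℤ, (∃ n : ℤ, v (k + 1) - v k - (s k + s (k + 1)) / (2 * M) = n) →
        ∀ t : ℝ, 0 ≤ t → t ≤ 1 / M → ∃ n : ℤ,
          Psi ((k : ℝ) / M + t) = v k + s k * t + (s (k + 1) - s k) * M * t ^ 2 / 2 + n) := by
  have hM' : (0 : ℝ) < M := Nat.cast_pos.2 hM
  have hcper : ∀ k, bump M v s (k + M) = bump M v s k := by
    intro k
    obtain ⟨n, hn⟩ := hvper k
    obtain ⟨n', hn'⟩ := hvper (k + 1)
    rw [bump, bump, mismatch, mismatch, add_right_comm, hn', hn, hsper, hsper,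
      show v (k + 1) + (n' : ℝ) - (v k + (n : ℝ)) - (s k + s (k + 1)) / (2 * M) =
        v (k + 1) - v k - (s k + s (k + 1)) / (2 * M) + ((n' - n : ℤ) : ℝ) by push_cast; ring,
      Int.fract_add_intCast]
  have hwper : ∀ x, slope M v s (x + 1) = slope M v s x := by
    intro x
    rw [slope, slope, mul_add, mul_one, interp, interp, Int.floor_add_natCast,
      Int.fract_add_natCast, hsper, hcper,
      add_right_comm ⌊(M : ℝ) * x⌋ (M : ℤ) 1, hsper]
  have hweven : ∀ x, slope M v s (-x) = slope M v s x := by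
    intro x
    rw [slope, slope, mul_neg]
    set t : ℝ := M * x
    set k := ⌊t⌋
    have h1 := Int.floor_le t
    have h2 := (Int.lt_floor_add_one t).le
    rw [interp_cell s _ (-k - 1) (by push_cast; linarith) (by push_cast; linarith),
      interp_cell s _ k h1 h2, sub_add_cancel, hseven,
      show -k - 1 = -(k + 1) by ring, hseven]
    have hc : bump M v s (-(k + 1)) = bump M v s k := by
      obtain ⟨n, hn⟩ := hvodd k
      obtain ⟨n', hn'⟩ := hvodd (k + 1)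
      rw [bump, bump, mismatch, mismatch, show -(k + 1) + 1 = -k by ring, hseven, hseven,
        show v (-k) - v (-(k + 1)) - (s (k + 1) + s k) / (2 * M) =
          v (k + 1) - v k - (s k + s (k + 1)) / (2 * M) + ((n - n' : ℤ) : ℝ) by
            rw [add_comm (s k)]; push_cast; linarith,
        Int.fract_add_intCast]
    rw [hc]
    push_cast
    ring
  have hd := hasDerivAt_phase (M := M) (v := v) hs
  refine ⟨phase M v s, slope M v s, hd, slope_mem hs, slope_lipschitz hs, ?_, ?_, ?_, ?_⟩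
  · intro x
    have hc : phase M v s (x + 1) - phase M v s x = phase M v s (0 + 1) - phase M v s 0 :=
      is_const_of_deriv_eq_zero (f := fun y => phase M v s (y + 1) - phase M v s y)
        (fun y => (((hd (y + 1)).comp_add_const y 1).fun_sub (hd y)).differentiableAt)
        (fun y => (((hd (y + 1)).comp_add_const y 1).fun_sub (hd y)).deriv.trans
          (by rw [hwper, sub_self])) x 0
    obtain ⟨n, hn⟩ := phase_node (v := v) hM hs (M : ℤ)
    obtain ⟨n', hn'⟩ := hvper 0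
    have e : ((M : ℤ) : ℝ) / (M : ℝ) = 1 := by push_cast; exact div_self hM'.ne'
    rw [e] at hn
    rw [zero_add] at hn' hc
    have h0 : phase M v s 0 = v 0 := by simp [phase]
    rw [hn, hn', h0] at hc
    exact ⟨n + n', by push_cast; linarith⟩
  · intro x
    have hc : phase M v s (-x) + phase M v s x = phase M v s (-0) + phase M v s 0 :=
      is_const_of_deriv_eq_zero (f := fun y => phase M v s (-y) + phase M v s y)
        (fun y => (((hd (-y)).comp y (hasDerivAt_neg y)).fun_add (hd y)).differentiableAt)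
        (fun y => (((hd (-y)).comp y (hasDerivAt_neg y)).fun_add (hd y)).deriv.trans
          (by rw [hweven]; ring)) x 0
    obtain ⟨n, hn⟩ := hvodd 0
    rw [neg_zero] at hc hn
    have h0 : phase M v s 0 = v 0 := by simp [phase]
    exact ⟨n, by rw [hc, h0, hn]⟩
  · intro k
    refine ⟨?_, phase_node hM hs k⟩
    rw [slope, mul_div_cancel₀ _ hM'.ne', interp_cell s _ k le_rfl (by linarith)]
    ring
  · intro k ⟨m, hm⟩ t ht0 ht1
    obtain ⟨n, hn⟩ := phase_node (v := v) hM hs k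
    refine ⟨n, ?_⟩
    rw [phase_cell hM hs k ht0 ht1, hn, bump, mismatch, hm, Int.fract_intCast]
    ring

end Vale.Agent.P110.Curve
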