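import Mathlib

/-!
# A sampled chirp sum is a Gauss sum times the window at the stationary point

For even `M` and a `C⁴` window `Φ` living on an interval of length one, the sum
`∑ Φ(t/M) e(t²/(2M) - y t)` equals `G e(-M y²/2) Φ(y) + O(1/√M)` with `|G| = √M`.
The proof is finite: invert the discrete Fourier transform of the sampled window and
complete the square.
-/

namespace Vale.Agent.P110.Exist

open Finset

/-- `e(x) = exp (2πix)`. -/
noncomputable def ee (x : ℝ) : ℂ := Complex.exp (((2 * Real.pi * x : ℝ) : ℂ) * Complex.I)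

lemma norm_ee (x : ℝ) : ‖ee x‖ = 1 := by
  rw [ee, Complex.norm_exp_ofReal_mul_I]

lemma ee_add (x y : ℝ) : ee (x + y) = ee x * ee y := by
  rw [ee, ee, ee, ← Complex.exp_add]
  congr 1
  push_cast; ring

lemma ee_zero : ee 0 = 1 := by simp [ee]

lemma ee_neg (x : ℝ) : ee (-x) = (starRingEnd ℂ) (ee x) := by
  rw [ee, ee, ← Complex.exp_conj]
  congr 1
  simp only [map_mul, Complex.conj_ofReal, Complex.conj_I]
  push_cast; ring

lemma ee_eq_one_iff (x : ℝ) : ee x = 1 ↔ ∃ k : ℤ, x = k := by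
  rw [ee, Complex.exp_eq_one_iff]
  refine exists_congr fun k => ?_
  have hπ := Real.pi_ne_zero
  rw [show (k : ℂ) * (2 * (Real.pi : ℂ) * Complex.I)
    = ((2 * Real.pi * k : ℝ) : ℂ) * Complex.I by push_cast; ring,
    mul_left_inj' Complex.I_ne_zero, Complex.ofReal_inj]
  exact mul_right_inj' (by positivity)

lemma ee_int (k : ℤ) : ee k = 1 := (ee_eq_one_iff _).2 ⟨k, rfl⟩

lemma ee_add_int (x : ℝ) (k : ℤ) : ee (x + k) = ee x := by rw [ee_add, ee_int, mul_one]

lemma ee_nat_mul (x : ℝ) (n : ℕ) : ee (n * x) = ee x ^ n := by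
  rw [ee, ee, ← Complex.exp_nat_mul]
  congr 1
  push_cast; ring

lemma norm_ee_sub_one (x : ℝ) : ‖ee x - 1‖ = 2 * |Real.sin (Real.pi * x)| := by
  have h := Complex.norm_exp_I_mul_ofReal_sub_one (2 * Real.pi * x)
  rw [ee, mul_comm, h, norm_mul, Real.norm_two, Real.norm_eq_abs]
  congr 2; ring_nf

lemma norm_ee_sub_one_le (x : ℝ) : ‖ee x - 1‖ ≤ 2 * Real.pi * |x| := by
  rw [norm_ee_sub_one]
  have := Real.abs_sin_le_abs (x := Real.pi * x)
  rw [abs_mul, abs_of_pos Real.pi_pos] at this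
  linarith

lemma le_norm_ee_sub_one {x : ℝ} (hx : |x| ≤ 1 / 2) : 4 * |x| ≤ ‖ee x - 1‖ := by
  have hπ := Real.pi_pos
  have h := Real.mul_abs_le_abs_sin (x := Real.pi * x) (by
    rw [abs_mul, abs_of_pos hπ]; nlinarith)
  rw [abs_mul, abs_of_pos hπ, ← mul_assoc, div_mul_cancel₀ _ hπ.ne'] at h
  rw [norm_ee_sub_one]
  linarith

/-- The full sum of a character of `ℤ/M`. -/
lemma sum_ee_mul (M : ℕ) (hM : 0 < M) (h : ℤ) :
    ∑ s ∈ range M, ee ((h : ℝ) * s / M) = if (M : ℤ) ∣ h then (M : ℂ) else 0 := by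
  have hM' : (M : ℝ) ≠ 0 := by positivity
  have hp : ∀ s : ℕ, ee ((h : ℝ) * s / M) = ee ((h : ℝ) / M) ^ s := fun s => by
    rw [← ee_nat_mul]; ring_nf
  simp only [hp]
  split_ifs with hd
  · obtain ⟨c, rfl⟩ := hd
    have : ee (((M : ℤ) * c : ℤ) / (M : ℝ)) = 1 := by
      rw [ee_eq_one_iff]; exact ⟨c, by push_cast; field_simp⟩
    rw [sum_congr rfl fun s _ => by rw [this, one_pow]]
    simp
  · have h1 : ee ((h : ℝ) / M) ≠ 1 := by
      intro he
      obtain ⟨c, hc⟩ := (ee_eq_one_iff _).1 he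
      rw [div_eq_iff hM'] at hc
      exact hd ⟨c, by
        have : (h : ℝ) = (((M : ℤ) * c : ℤ) : ℝ) := by push_cast; linarith
        exact_mod_cast this⟩
    have h2 : ee ((h : ℝ) / M) ^ M = 1 := by
      rw [← ee_nat_mul, ee_eq_one_iff]; exact ⟨h, by field_simp⟩
    have := geom_sum_mul (ee ((h : ℝ) / M)) M
    rw [h2, sub_self] at this
    exact (mul_eq_zero.1 this).resolve_right (sub_ne_zero.2 h1)

/-- A periodic sequence has the same sum over every period. -/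
lemma sum_window {f : ℤ → ℂ} {M : ℕ} (hf : ∀ t, f (t + M) = f t) (a : ℤ) :
    ∑ j ∈ range M, f (a + j) = ∑ j ∈ range M, f j := by
  have step : ∀ b : ℤ, ∑ j ∈ range M, f (b + 1 + j) = ∑ j ∈ range M, f (b + j) := fun b => by
    have h1 := sum_range_succ' (fun j : ℕ => f (b + j)) M
    have h2 := sum_range_succ (fun j : ℕ => f (b + j)) M
    simp only [Nat.cast_zero, add_zero, hf] at h1 h2
    have h3 := h1.symm.trans h2
    rw [add_left_inj] at h3
    rw [← h3]
    exact sum_congr rfl fun j _ => by push_cast; ring_nf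
  induction a using Int.induction_on with
  | zero => simp
  | succ i ih => rw [step, ih]
  | pred i ih => rw [← step]; simpa using ih

/-- The quadratic Gauss sum of even modulus `M`. -/
noncomputable def gauss0 (M : ℕ) : ℂ := ∑ t ∈ range M, ee ((t : ℝ) ^ 2 / (2 * M))

lemma quad_periodic {M : ℕ} (hM : 0 < M) (hev : Even M) (t : ℤ) :
    ee (((t + M : ℤ) : ℝ) ^ 2 / (2 * M)) = ee ((t : ℝ) ^ 2 / (2 * M)) := by
  obtain ⟨c, hc⟩ := hev
  have hM' : (M : ℝ) ≠ 0 := by positivity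
  rw [← ee_add_int ((t : ℝ) ^ 2 / (2 * M)) (t + c)]
  congr 1
  have hc' : (c : ℝ) = M / 2 := by rw [hc]; push_cast; ring
  push_cast
  rw [hc']
  field_simp
  ring

lemma sum_quad_window {M : ℕ} (hM : 0 < M) (hev : Even M) (a : ℤ) :
    ∑ j ∈ range M, ee (((a + j : ℤ) : ℝ) ^ 2 / (2 * M)) = gauss0 M := by
  rw [sum_window (f := fun t : ℤ => ee ((t : ℝ) ^ 2 / (2 * M))) (quad_periodic hM hev) a, gauss0]
  simp

/-- Completing the square. -/
lemma sum_quad_lin {M : ℕ} (hM : 0 < M) (hev : Even M) (a m : ℤ) :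
    ∑ j ∈ range M, ee (((a + j : ℤ) : ℝ) ^ 2 / (2 * M) - m * ((a + j : ℤ) : ℝ) / M)
      = ee (-((m : ℝ) ^ 2) / (2 * M)) * gauss0 M := by
  rw [← sum_quad_window hM hev (a - m), mul_sum]
  refine sum_congr rfl fun j _ => ?_
  rw [← ee_add]
  congr 1
  have hM' : (M : ℝ) ≠ 0 := by positivity
  push_cast
  field_simp
  ring

lemma norm_gauss0 {M : ℕ} (hM : 0 < M) (hev : Even M) : ‖gauss0 M‖ = Real.sqrt M := by
  have hM' : (M : ℝ) ≠ 0 := by positivity
  have key : (starRingEnd ℂ) (gauss0 M) * gauss0 M = (M : ℂ) := by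
    calc (starRingEnd ℂ) (gauss0 M) * gauss0 M
        = ∑ s ∈ range M, ee (-((s : ℝ) ^ 2 / (2 * M))) * gauss0 M := by
          rw [gauss0, map_sum, sum_mul]
          exact sum_congr rfl fun s _ => by rw [ee_neg]
      _ = ∑ s ∈ range M, ∑ h ∈ range M,
            ee ((h : ℝ) ^ 2 / (2 * M)) * ee (((h : ℤ) : ℝ) * s / M) := by
          refine sum_congr rfl fun s _ => ?_
          rw [← sum_quad_window hM hev (s : ℤ), mul_sum]
          refine sum_congr rfl fun h _ => ?_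
          rw [← ee_add, ← ee_add]
          congr 1
          push_cast
          field_simp
          ring
      _ = ∑ h ∈ range M, ee ((h : ℝ) ^ 2 / (2 * M)) * if (M : ℤ) ∣ (h : ℤ) then (M : ℂ) else 0 := by
          rw [sum_comm]
          exact sum_congr rfl fun h _ => by rw [← mul_sum, sum_ee_mul M hM]
      _ = (M : ℂ) := by
          rw [sum_eq_single 0]
          · simp [ee_zero]
          · intro h hh h0
            rw [if_neg, mul_zero]
            intro hd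
            have := Nat.le_of_dvd (Nat.pos_of_ne_zero h0) (Int.natCast_dvd_natCast.1 hd)
            have := mem_range.1 hh
            omega
          · intro h; simp [hM] at h
  rw [Complex.conj_mul'] at key
  have h2 : ‖gauss0 M‖ ^ 2 = (M : ℝ) := by exact_mod_cast key
  rw [← h2, Real.sqrt_sq (norm_nonneg _)]

/-- Forward difference. -/
def fdiff (g : ℤ → ℂ) : ℤ → ℂ := fun t => g (t + 1) - g t

lemma fdiff_iter_bound : ∀ (k : ℕ) {f : ℝ → ℂ} {B h : ℝ}, ContDiff ℝ k f → 0 ≤ h →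
    (∀ x, ‖iteratedDeriv k f x‖ ≤ B) → ∀ t : ℤ,
      ‖fdiff^[k] (fun s : ℤ => f (s * h)) t‖ ≤ B * h ^ k := by
  intro k
  induction k with
  | zero => intro f B h _ _ hb t; simpa using hb (t * h)
  | succ k ih =>
    intro f B h hf hh hb t
    have hfk : ContDiff ℝ k f := hf.of_le (by exact_mod_cast Nat.le_succ k)
    have hstep : fdiff (fun s : ℤ => f (s * h)) = fun s : ℤ => f (s * h + h) - f (s * h) := by
      funext s
      simp only [fdiff]
      push_cast
      rw [add_one_mul]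
    have hd : Differentiable ℝ (iteratedDeriv k f) :=
      hf.differentiable_iteratedDeriv k (by exact_mod_cast Nat.lt_succ_self k)
    have hφ : ∀ x, ‖iteratedDeriv k (fun u => f (u + h) - f u) x‖ ≤ B * h := fun x => by
      have hc : ContDiff ℝ k (fun u => f (u + h)) := hfk.comp (contDiff_id.add contDiff_const)
      rw [iteratedDeriv_fun_sub hc.contDiffAt hfk.contDiffAt, iteratedDeriv_comp_add_const]
      have hs := convex_univ.norm_image_sub_le_of_norm_deriv_le (f := iteratedDeriv k f) (C := B)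
        (fun y _ => hd y) (fun y _ => by rw [← iteratedDeriv_succ]; exact hb y)
        (Set.mem_univ x) (Set.mem_univ (x + h))
      simpa [Real.norm_eq_abs, abs_of_nonneg hh] using hs
    rw [Function.iterate_succ_apply, hstep]
    refine (ih (f := fun u => f (u + h) - f u) ((hfk.comp (contDiff_id.add contDiff_const)).sub hfk)
      hh hφ t).trans (le_of_eq ?_)
    ring

lemma fdiff_iter_zero {g : ℤ → ℂ} {a b : ℤ} (hg : ∀ t, g t ≠ 0 → a ≤ t ∧ t < b) :
    ∀ (k : ℕ) (t : ℤ), fdiff^[k] g t ≠ 0 → a - k ≤ t ∧ t < b := by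
  intro k
  induction k with
  | zero => simpa using hg
  | succ k ih =>
    intro t ht
    rw [Function.iterate_succ_apply', fdiff] at ht
    push_cast
    by_cases h1 : fdiff^[k] g (t + 1) = 0
    · rw [h1, zero_sub, neg_ne_zero] at ht
      have := ih t ht; omega
    · have := ih (t + 1) h1; omega

/-- The unnormalised Fourier sum at frequency `x`. -/
noncomputable def fsum (g : ℤ → ℂ) (x : ℝ) : ℂ := ∑' t : ℤ, g t * ee (-(x * t))

lemma summable_fsum {g : ℤ → ℂ} {a b : ℤ} (hg : ∀ t, g t ≠ 0 → a ≤ t ∧ t < b) (x : ℝ) :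
    Summable fun t : ℤ => g t * ee (-(x * t)) := by
  refine summable_of_ne_finset_zero (s := Finset.Ico a b) fun t ht => ?_
  rw [mul_eq_zero]; left
  by_contra h
  exact ht (Finset.mem_Ico.2 (hg t h))

lemma fsum_fdiff {g : ℤ → ℂ} {a b : ℤ} (hg : ∀ t, g t ≠ 0 → a ≤ t ∧ t < b) (x : ℝ) :
    fsum (fdiff g) x = (ee x - 1) * fsum g x := by
  have hsh : (fun t : ℤ => g (t + 1) * ee (-(x * t)))
      = (fun t : ℤ => ee x * (g t * ee (-(x * t)))) ∘ (Equiv.addRight 1) := by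
    funext t
    simp only [Function.comp_apply, Equiv.coe_addRight]
    rw [← mul_assoc, mul_comm (ee x), mul_assoc, ← ee_add]
    congr 2
    push_cast; ring
  have hs2 := (summable_fsum hg x).mul_left (ee x)
  have hs : Summable fun t : ℤ => g (t + 1) * ee (-(x * t)) := by
    rw [hsh]; exact (Equiv.summable_iff _).2 hs2
  simp only [fsum, fdiff, sub_mul]
  rw [hs.tsum_sub (summable_fsum hg x), hsh, one_mul]
  simp only [Function.comp_def]
  rw [Equiv.tsum_eq (Equiv.addRight (1 : ℤ)) (fun t : ℤ => ee x * (g t * ee (-(x * t)))),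
    tsum_mul_left]

lemma fsum_iter {g : ℤ → ℂ} {a b : ℤ} (hg : ∀ t, g t ≠ 0 → a ≤ t ∧ t < b) (x : ℝ) :
    ∀ k : ℕ, fsum (fdiff^[k] g) x = (ee x - 1) ^ k * fsum g x := by
  intro k
  induction k with
  | zero => simp
  | succ k ih =>
    rw [Function.iterate_succ_apply', fsum_fdiff (fdiff_iter_zero hg k) x, ih, pow_succ]
    ring

lemma norm_fsum_le {g : ℤ → ℂ} {a b : ℤ} {c : ℝ} (hg : ∀ t, g t ≠ 0 → a ≤ t ∧ t < b)
    (hc : ∀ t, ‖g t‖ ≤ c) (x : ℝ) : ‖fsum g x‖ ≤ ((b - a).toNat : ℝ) * c := by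
  rw [fsum, tsum_eq_sum (s := Finset.Ico a b) fun t ht => by
    rw [mul_eq_zero]; left; by_contra h; exact ht (Finset.mem_Ico.2 (hg t h))]
  refine (norm_sum_le_of_le _ (n := fun _ => c) fun t _ => ?_).trans (le_of_eq ?_)
  · rw [norm_mul, norm_ee, mul_one]; exact hc t
  · simp

lemma exists_deriv_bound {Φ : ℝ → ℂ} {a : ℝ} (hΦ : ContDiff ℝ 4 Φ)
    (hs : ∀ x, Φ x ≠ 0 → a < x ∧ x < a + 1) :
    ∃ B : ℝ, 0 ≤ B ∧ ∀ ε : ℝ, 0 ≤ ε → ε ≤ 1 → ∀ k : ℕ, k ≤ 4 → ∀ x,
      ‖iteratedDeriv k (fun u => Φ u * ee (-(ε * u))) x‖ ≤ B := by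
  have hc : HasCompactSupport Φ := HasCompactSupport.intro (isCompact_Icc (a := a) (b := a + 1))
    fun x hx => by_contra fun h => hx ⟨(hs x h).1.le, (hs x h).2.le⟩
  choose C hC using fun i : Fin 5 =>
    (hΦ.continuous_iteratedFDeriv (m := (i : ℕ))
      (by exact_mod_cast Nat.lt_succ_iff.1 i.isLt)).bounded_above_of_compact_support
      (hc.iteratedFDeriv (i : ℕ))
  have hC0 : ∀ i, 0 ≤ C i := fun i => (norm_nonneg _).trans (hC i 0)
  obtain ⟨A, hA⟩ : ∃ A : ℝ, A = ∑ i, C i := ⟨_, rfl⟩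
  have hA0 : 0 ≤ A := hA ▸ sum_nonneg fun i _ => hC0 i
  refine ⟨16 * (A * (2 * Real.pi + 1) ^ 4), by positivity, fun ε hε hε1 k hk x => ?_⟩
  obtain ⟨c, hcdef⟩ : ∃ c : ℂ, c = ((-(2 * Real.pi * ε) : ℝ) : ℂ) * Complex.I := ⟨_, rfl⟩
  have hg : (fun u : ℝ => ee (-(ε * u))) = fun u : ℝ => Complex.exp (c * u) := by
    funext u; rw [ee, hcdef]; congr 1; push_cast; ring
  have hder : ∀ i : ℕ, iteratedDeriv i (fun u : ℝ => Complex.exp (c * u))
      = fun u : ℝ => c ^ i * Complex.exp (c * u) := by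
    intro i
    induction i with
    | zero => simp
    | succ i ih =>
      rw [iteratedDeriv_succ, ih]
      funext u
      have h1 : HasDerivAt (fun v : ℝ => Complex.exp (c * v)) (Complex.exp (c * u) * c) u := by
        simpa using (((hasDerivAt_id (u : ℂ)).const_mul c).cexp).comp_ofReal
      rw [(h1.const_mul (c ^ i)).deriv]; ring
  have hgC : ContDiff ℝ 4 (fun u : ℝ => ee (-(ε * u))) := by
    rw [hg]; exact (contDiff_const.mul Complex.ofRealCLM.contDiff).cexp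
  have hgn : ∀ i : ℕ, i ≤ 4 →
      ‖iteratedFDeriv ℝ i (fun u : ℝ => ee (-(ε * u))) x‖ ≤ (2 * Real.pi + 1) ^ 4 := by
    intro i hi
    rw [norm_iteratedFDeriv_eq_norm_iteratedDeriv, hg, hder, norm_mul, norm_pow]
    have he : ‖Complex.exp (c * x)‖ = 1 := by
      have := congrFun hg x
      rw [← this, norm_ee]
    have hcn : ‖c‖ ≤ 2 * Real.pi + 1 := by
      rw [hcdef, norm_mul, Complex.norm_I, mul_one, Complex.norm_real, Real.norm_eq_abs, abs_neg,
        abs_of_nonneg (by positivity)]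
      nlinarith [Real.pi_pos]
    rw [he, mul_one]
    exact (pow_le_pow_left₀ (norm_nonneg _) hcn i).trans
      (pow_le_pow_right₀ (by linarith [Real.pi_pos]) hi)
  rw [← norm_iteratedFDeriv_eq_norm_iteratedDeriv]
  refine (norm_iteratedFDeriv_mul_le hΦ hgC x (by exact_mod_cast hk)).trans ?_
  calc ∑ i ∈ range (k + 1), (k.choose i : ℝ) * ‖iteratedFDeriv ℝ i Φ x‖
          * ‖iteratedFDeriv ℝ (k - i) (fun u : ℝ => ee (-(ε * u))) x‖
      ≤ ∑ i ∈ range (k + 1), (k.choose i : ℝ) * (A * (2 * Real.pi + 1) ^ 4) := by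
        refine sum_le_sum fun i hi => ?_
        have hi' := mem_range.1 hi
        rw [mul_assoc]
        refine mul_le_mul_of_nonneg_left (mul_le_mul ?_ (hgn _ (by omega)) (norm_nonneg _) hA0)
          (Nat.cast_nonneg _)
        rw [hA]
        exact (hC ⟨i, by omega⟩ x).trans (single_le_sum (fun j _ => hC0 j) (mem_univ _))
    _ = (2 : ℝ) ^ k * (A * (2 * Real.pi + 1) ^ 4) := by
        rw [← sum_mul]
        congr 1
        exact_mod_cast Nat.sum_range_choose k
    _ ≤ 16 * (A * (2 * Real.pi + 1) ^ 4) := by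
        refine mul_le_mul_of_nonneg_right ?_ (by positivity)
        exact (pow_le_pow_right₀ one_le_two hk).trans (by norm_num)

/-- **The chirp sum.** -/
theorem chirp_sum {Φ : ℝ → ℂ} {a : ℝ} (hΦ : ContDiff ℝ 4 Φ)
    (hs : ∀ x, Φ x ≠ 0 → a < x ∧ x < a + 1) :
    ∃ C : ℝ, 0 ≤ C ∧ ∀ M : ℕ, 0 < M → Even M → ∀ y : ℝ, a ≤ y → y ≤ a + 1 →
      ∀ T : Finset ℤ, (∀ t : ℤ, Φ (t / M) ≠ 0 → t ∈ T) →
        ‖(∑ t ∈ T, Φ (t / M) * ee ((t : ℝ) ^ 2 / (2 * M) - y * t))
            - gauss0 M * ee (-((M : ℝ) * y ^ 2) / 2) * Φ y‖ ≤ C / Real.sqrt M := by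
  obtain ⟨B, hB0, hB⟩ := exists_deriv_bound hΦ hs
  obtain ⟨Z, hZ⟩ : ∃ Z : ℝ, Z = ∑' n : ℤ, 1 / (n : ℝ) ^ 2 := ⟨_, rfl⟩
  have hZ0 : 0 ≤ Z := hZ ▸ tsum_nonneg fun n => by positivity
  refine ⟨Real.pi * B * Z + 2 * B + 7 * B, by positivity, fun M hM hev y hya hyb T hT => ?_⟩
  have hM' : (0 : ℝ) < M := by exact_mod_cast hM
  obtain ⟨k, hk⟩ : ∃ k : ℤ, k = ⌊y * M⌋ := ⟨_, rfl⟩
  obtain ⟨ε, hε⟩ : ∃ ε : ℝ, ε = y * M - k := ⟨_, rfl⟩
  have hε0 : 0 ≤ ε := by rw [hε, hk]; linarith [Int.floor_le (y * M)]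
  have hε1 : ε ≤ 1 := by rw [hε, hk]; linarith [Int.lt_floor_add_one (y * M)]
  have hy : y = (k + ε) / M := by rw [hε]; field_simp; ring
  set h : ℝ → ℂ := fun u => Φ u * ee (-(ε * u)) with hh
  have hb : ∀ j ≤ 4, ∀ x, ‖iteratedDeriv j h x‖ ≤ B := hB ε hε0 hε1
  have hhC : ContDiff ℝ 4 h := by
    refine hΦ.mul ?_
    unfold ee
    have : ContDiff ℝ 4 (fun u : ℝ => 2 * Real.pi * -(ε * u)) :=
      contDiff_const.mul (contDiff_const.mul contDiff_id).neg
    exact ((Complex.ofRealCLM.contDiff.comp this).mul contDiff_const).cexp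
  have hh0 : ∀ x, ‖h x‖ ≤ B := fun x => by simpa using hb 0 (by norm_num) x
  have hLip : ∀ u v, ‖h u - h v‖ ≤ B * |u - v| := fun u v => by
    have := convex_univ.norm_image_sub_le_of_norm_deriv_le (f := h) (C := B)
      (fun z _ => (hhC.differentiable (by norm_num)) z)
      (fun z _ => by simpa using hb 1 (by norm_num) z) (Set.mem_univ v) (Set.mem_univ u)
    simpa [Real.norm_eq_abs] using this
  have hsupp : ∀ x, h x ≠ 0 → a < x ∧ x < a + 1 := fun x hx => hs x (left_ne_zero_of_mul hx)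
  have hha : h a = 0 := by_contra fun hc => lt_irrefl a (hsupp a hc).1
  have hhb : h (a + 1) = 0 := by_contra fun hc => lt_irrefl (a + 1) (hsupp (a + 1) hc).2
  -- the window
  obtain ⟨t0, ht0⟩ : ∃ t0 : ℤ, t0 = ⌊a * M⌋ + 1 := ⟨_, rfl⟩
  have ht0a : a * M < t0 := by rw [ht0]; push_cast; exact Int.lt_floor_add_one _
  set g : ℤ → ℂ := fun t => h (t / M) with hg
  have hgs : ∀ t, g t ≠ 0 → t0 ≤ t ∧ t < t0 + M := by
    intro t ht
    obtain ⟨h1, h2⟩ := hsupp _ ht
    rw [lt_div_iff₀ hM'] at h1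
    rw [div_lt_iff₀ hM'] at h2
    constructor
    · rw [ht0, Int.add_one_le_iff, Int.floor_lt]; exact h1
    · have : (t : ℝ) < ((t0 + M : ℤ) : ℝ) := by push_cast; linarith
      exact_mod_cast this
  -- the sum over the window
  have hsum : (∑ t ∈ T, Φ (t / M) * ee ((t : ℝ) ^ 2 / (2 * M) - y * t))
      = ∑ j ∈ range M, g (t0 + j) * ee (((t0 + j : ℤ) : ℝ) ^ 2 / (2 * M) - k * ((t0 + j : ℤ) : ℝ) / M) := by
    have hterm : ∀ t : ℤ, Φ (t / M) * ee ((t : ℝ) ^ 2 / (2 * M) - y * t)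
        = g t * ee ((t : ℝ) ^ 2 / (2 * M) - k * (t : ℝ) / M) := by
      intro t
      simp only [hg, hh]
      rw [mul_assoc, ← ee_add, hy]
      congr 2
      field_simp
      ring
    simp only [hterm]
    have himg : (range M).image (fun j : ℕ => t0 + (j : ℤ)) = Finset.Ico t0 (t0 + M) := by
      ext t
      simp only [mem_image, Finset.mem_Ico, mem_range]
      constructor
      · rintro ⟨j, hj, rfl⟩; omega
      · rintro ⟨h1, h2⟩; exact ⟨(t - t0).toNat, by omega, by omega⟩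
    rw [← sum_image (s := range M) (g := fun j : ℕ => t0 + (j : ℤ))
      (f := fun t : ℤ => g t * ee ((t : ℝ) ^ 2 / (2 * M) - k * (t : ℝ) / M))
      (fun i _ j _ hij => by simpa using hij), himg]
    refine (sum_subset (s₁ := T) (s₂ := T ∪ Finset.Ico t0 (t0 + M)) subset_union_left ?_).trans
      (sum_subset (s₁ := Finset.Ico t0 (t0 + M)) (s₂ := T ∪ Finset.Ico t0 (t0 + M))
        subset_union_right ?_).symm
    · intro t _ ht
      have : Φ (t / M) = 0 := by_contra fun hc => ht (hT t hc)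
      simp [hg, hh, this]
    · intro t _ ht
      have : g t = 0 := by_contra fun hc => ht (Finset.mem_Ico.2 (hgs t hc))
      simp [this]
  -- the coefficients
  set co : ℤ → ℂ := fun n => (M : ℂ)⁻¹ * fsum g ((n : ℝ) / M) with hco
  obtain ⟨c2, hc2⟩ := id hev
  set R : Finset ℤ := (range M).image (fun j : ℕ => -(c2 : ℤ) + (j : ℤ)) with hR
  have hRinj : Set.InjOn (fun j : ℕ => -(c2 : ℤ) + (j : ℤ)) (range M) :=
    fun i _ j _ hij => by simpa using hij
  have hcobd : ∀ n ∈ R, ‖co n‖ * (n : ℝ) ^ 2 ≤ B * (1 / (n : ℝ) ^ 2) := by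
    intro n hn
    rcases eq_or_ne n 0 with rfl | hn0
    · simp
    have hn' : (n : ℝ) ≠ 0 := by exact_mod_cast hn0
    have hsmall : |(n : ℝ) / M| ≤ 1 / 2 := by
      rw [hR, mem_image] at hn
      obtain ⟨j, hj, rfl⟩ := hn
      have hj' := mem_range.1 hj
      have hj2 : (j : ℝ) ≤ c2 + c2 := by
        have : j ≤ c2 + c2 := by omega
        exact_mod_cast this
      have hc2' : (M : ℝ) = c2 + c2 := by exact_mod_cast hc2
      rw [abs_div, abs_of_pos hM', div_le_iff₀ hM', abs_le]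
      push_cast
      constructor <;> linarith [Nat.cast_nonneg (α := ℝ) j]
    have hb4 : ∀ t, ‖fdiff^[4] g t‖ ≤ B * (1 / (M : ℝ)) ^ 4 := fun t => by
      have h4 := fdiff_iter_bound 4 (h := 1 / (M : ℝ)) hhC (by positivity) (hb 4 le_rfl) t
      simpa only [hg, mul_one_div] using h4
    have h1 : ‖ee ((n : ℝ) / M) - 1‖ ^ 4 * ‖fsum g ((n : ℝ) / M)‖
        ≤ ((M : ℝ) + 4) * (B * (1 / (M : ℝ)) ^ 4) := by
      have h4 := norm_fsum_le (fdiff_iter_zero hgs 4) hb4 ((n : ℝ) / M)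
      rw [fsum_iter hgs, norm_mul, norm_pow] at h4
      refine h4.trans (le_of_eq ?_)
      congr 1
      rw [show (t0 + (M : ℤ) - (t0 - ((4 : ℕ) : ℤ))).toNat = M + 4 by omega]
      push_cast; ring
    have h2 : (4 * |(n : ℝ) / M|) ^ 4 ≤ ‖ee ((n : ℝ) / M) - 1‖ ^ 4 :=
      pow_le_pow_left₀ (by positivity) (le_norm_ee_sub_one hsmall) 4
    have h3 : (4 * |(n : ℝ) / M|) ^ 4 = 256 * (n : ℝ) ^ 4 / (M : ℝ) ^ 4 := by
      rw [mul_pow, (show Even 4 by decide).pow_abs, div_pow]; ring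
    rw [h3] at h2
    have h4 : 256 * (n : ℝ) ^ 4 / (M : ℝ) ^ 4 * ‖fsum g ((n : ℝ) / M)‖
        ≤ ((M : ℝ) + 4) * (B * (1 / (M : ℝ)) ^ 4) :=
      (mul_le_mul_of_nonneg_right h2 (norm_nonneg _)).trans h1
    have h5 : 256 * (n : ℝ) ^ 4 * ‖fsum g ((n : ℝ) / M)‖ ≤ ((M : ℝ) + 4) * B := by
      have := mul_le_mul_of_nonneg_right h4 (pow_nonneg hM'.le 4)
      field_simp at this
      linarith
    have hM1 : (1 : ℝ) ≤ M := by exact_mod_cast hM
    have hn2 : (0 : ℝ) < (n : ℝ) ^ 2 := by positivity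
    simp only [hco, norm_mul, norm_inv, Complex.norm_natCast]
    rw [mul_one_div, le_div_iff₀ hn2, inv_mul_eq_div, div_mul_eq_mul_div, div_mul_eq_mul_div,
      div_le_iff₀ hM']
    nlinarith [mul_le_mul_of_nonneg_left hM1 hB0]
  -- inversion on the window
  have hinv : ∀ t : ℤ, t0 ≤ t → t < t0 + M → g t = ∑ n ∈ R, co n * ee ((n : ℝ) * t / M) := by
    intro t h1 h2
    have hF : ∀ x : ℝ, fsum g x = ∑ s ∈ Finset.Ico t0 (t0 + M), g s * ee (-(x * s)) := fun x =>
      tsum_eq_sum fun s hsn => by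
        rw [mul_eq_zero]; left; by_contra hc; exact hsn (Finset.mem_Ico.2 (hgs s hc))
    have horth : ∀ s ∈ Finset.Ico t0 (t0 + M),
        ∑ n ∈ R, ee ((n : ℝ) * t / M) * ee (-((n : ℝ) / M * s)) = if s = t then (M : ℂ) else 0 := by
      intro s hs'
      rw [Finset.mem_Ico] at hs'
      rw [hR, sum_image hRinj]
      have e : ∀ j : ℕ, ee (((-(c2 : ℤ) + j : ℤ) : ℝ) * t / M)
          * ee (-(((-(c2 : ℤ) + j : ℤ) : ℝ) / M * s))
          = ee (((-(c2 : ℤ)) : ℤ) * (((t - s : ℤ)) : ℝ) / M) * ee (((t - s : ℤ) : ℝ) * j / M) :=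
        fun j => by
          rw [← ee_add, ← ee_add]; congr 1; push_cast; field_simp; ring
      rw [sum_congr rfl fun j _ => e j, ← mul_sum, sum_ee_mul M hM]
      by_cases hst : s = t
      · subst hst; simp [ee_zero]
      · rw [if_neg hst, if_neg, mul_zero]
        intro hd
        have := Int.le_of_dvd (a := (M : ℤ)) (b := |t - s|)
          (abs_pos.2 (by omega)) ((dvd_abs _ _).2 hd)
        rw [le_abs] at this
        omega
    have hterm : ∀ n : ℤ, co n * ee ((n : ℝ) * t / M) = ∑ s ∈ Finset.Ico t0 (t0 + M),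
        (M : ℂ)⁻¹ * g s * (ee ((n : ℝ) * t / M) * ee (-((n : ℝ) / M * s))) := fun n => by
      simp only [hco, hF, mul_sum, sum_mul]
      exact sum_congr rfl fun s _ => by ring
    simp only [hterm]
    rw [sum_comm, sum_congr rfl fun s hs' => by rw [← mul_sum, horth s hs'],
      sum_eq_single_of_mem t (Finset.mem_Ico.2 ⟨h1, h2⟩) fun s _ hs' => by simp [hs'],
      if_pos rfl]
    have : (M : ℂ) ≠ 0 := by exact_mod_cast hM.ne'
    field_simp
  -- complete the square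
  have hmain : (∑ j ∈ range M, g (t0 + j) * ee (((t0 + j : ℤ) : ℝ) ^ 2 / (2 * M) - k * ((t0 + j : ℤ) : ℝ) / M))
      = gauss0 M * ee (-((k : ℝ) ^ 2) / (2 * M))
        * ∑ n ∈ R, co n * ee ((n : ℝ) * k / M) * ee (-((n : ℝ) ^ 2) / (2 * M)) := by
    have hj : ∀ j ∈ range M, g (t0 + j) * ee (((t0 + j : ℤ) : ℝ) ^ 2 / (2 * M) - k * ((t0 + j : ℤ) : ℝ) / M)
        = ∑ n ∈ R, co n * ee (((t0 + j : ℤ) : ℝ) ^ 2 / (2 * M) - ((k - n : ℤ) : ℝ) * ((t0 + j : ℤ) : ℝ) / M) := by
      intro j hj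
      rw [mem_range] at hj
      rw [hinv _ (by omega) (by omega), sum_mul]
      refine sum_congr rfl fun n _ => ?_
      rw [mul_assoc, ← ee_add]
      congr 2
      push_cast; field_simp; ring
    rw [sum_congr rfl hj, sum_comm, mul_sum]
    refine sum_congr rfl fun n _ => ?_
    rw [← mul_sum, sum_quad_lin hM hev]
    have : ee (-(((k - n : ℤ) : ℝ) ^ 2) / (2 * M))
        = ee (-((k : ℝ) ^ 2) / (2 * M)) * ee ((n : ℝ) * k / M) * ee (-((n : ℝ) ^ 2) / (2 * M)) := by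
      rw [← ee_add, ← ee_add]; congr 1; push_cast; field_simp; ring
    rw [this]; ring
  -- first error: dropping the quadratic factor
  have herr1 : ‖(∑ n ∈ R, co n * ee ((n : ℝ) * k / M) * ee (-((n : ℝ) ^ 2) / (2 * M)))
      - ∑ n ∈ R, co n * ee ((n : ℝ) * k / M)‖ ≤ Real.pi * B * Z / M := by
    rw [← sum_sub_distrib]
    have hb' : ∀ n ∈ R, ‖co n * ee ((n : ℝ) * k / M) * ee (-((n : ℝ) ^ 2) / (2 * M))
        - co n * ee ((n : ℝ) * k / M)‖ ≤ Real.pi * B / M * (1 / (n : ℝ) ^ 2) := by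
      intro n hn
      rw [← mul_sub_one, norm_mul, norm_mul, norm_ee, mul_one]
      calc ‖co n‖ * ‖ee (-((n : ℝ) ^ 2) / (2 * M)) - 1‖
          ≤ ‖co n‖ * (2 * Real.pi * |(-((n : ℝ) ^ 2) / (2 * M))|) :=
            mul_le_mul_of_nonneg_left (norm_ee_sub_one_le _) (norm_nonneg _)
        _ = Real.pi / M * (‖co n‖ * (n : ℝ) ^ 2) := by
            rw [abs_div, abs_neg, abs_of_nonneg (sq_nonneg (n : ℝ)),
              abs_of_pos (by positivity : (0 : ℝ) < 2 * M)]
            field_simp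
        _ ≤ Real.pi / M * (B * (1 / (n : ℝ) ^ 2)) :=
            mul_le_mul_of_nonneg_left (hcobd n hn) (by positivity)
        _ = Real.pi * B / M * (1 / (n : ℝ) ^ 2) := by ring
    refine (norm_sum_le_of_le _ hb').trans ?_
    rw [← mul_sum, hZ, mul_div_right_comm (Real.pi * B)]
    exact mul_le_mul_of_nonneg_left
      ((Real.summable_one_div_int_pow.2 (by norm_num)).sum_le_tsum _ fun n _ => by positivity)
      (by positivity)
  -- second error: the sampled value against the window at `y`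
  have hkle : (k : ℝ) ≤ y * M := by rw [hk]; exact Int.floor_le _
  have hklt : y * M < (k : ℝ) + 1 := by rw [hk]; exact Int.lt_floor_add_one _
  have hkw : k < t0 + M := by
    have : (k : ℝ) < ((t0 + M : ℤ) : ℝ) := by push_cast; nlinarith
    exact_mod_cast this
  have hkw' : t0 - 1 ≤ k := by
    rw [ht0, hk, add_sub_cancel_right]; exact Int.floor_le_floor (by nlinarith)
  have herr2 : ‖(∑ n ∈ R, co n * ee ((n : ℝ) * k / M)) - h y‖ ≤ 2 * B / M := by
    by_cases hk0 : t0 ≤ k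
    · rw [← hinv k hk0 hkw]
      refine (hLip _ _).trans ?_
      rw [show 2 * B / (M : ℝ) = B * (2 / M) by ring]
      refine mul_le_mul_of_nonneg_left ?_ hB0
      rw [show (k : ℝ) / M - y = ((k : ℝ) - y * M) / M by field_simp, abs_div, abs_of_pos hM']
      exact div_le_div_of_nonneg_right (abs_le.2 ⟨by linarith, by linarith⟩) hM'.le
    · have hkeq : k = t0 - 1 := by omega
      have hper : (∑ n ∈ R, co n * ee ((n : ℝ) * k / M)) = g (k + M) := by
        rw [hinv (k + M) (by omega) (by omega)]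
        refine sum_congr rfl fun n _ => ?_
        congr 1
        rw [show (n : ℝ) * ((k + M : ℤ) : ℝ) / M = (n : ℝ) * k / M + (n : ℤ) by
          push_cast; field_simp, ee_add_int]
      have hka : (k : ℝ) ≤ a * M := by rw [hkeq, ht0]; push_cast; linarith [Int.floor_le (a * M)]
      have hak : a * M < (k : ℝ) + 1 := by rw [hkeq]; push_cast; linarith
      have h1 : ‖g (k + M)‖ ≤ B * (1 / M) := by
        have := hLip (((k + M : ℤ) : ℝ) / M) (a + 1)
        rw [hhb, sub_zero] at this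
        refine this.trans (mul_le_mul_of_nonneg_left ?_ hB0)
        push_cast
        rw [show ((k : ℝ) + M) / M - (a + 1) = ((k : ℝ) - a * M) / M by field_simp; ring,
          abs_div, abs_of_pos hM']
        exact div_le_div_of_nonneg_right (abs_le.2 ⟨by linarith, by linarith⟩) hM'.le
      have h2 : ‖h y‖ ≤ B * (1 / M) := by
        have := hLip y a
        rw [hha, sub_zero] at this
        refine this.trans (mul_le_mul_of_nonneg_left ?_ hB0)
        rw [abs_of_nonneg (by linarith), le_div_iff₀ hM', sub_mul]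
        linarith
      rw [hper]
      refine (norm_sub_le _ _).trans ((add_le_add h1 h2).trans (le_of_eq ?_))
      ring
  -- third error: the phase
  have hfin : ee (-((M : ℝ) * y ^ 2) / 2) * Φ y
      = ee (-((k : ℝ) ^ 2) / (2 * M)) * (h y * ee (ε ^ 2 / (2 * M))) := by
    simp only [hh]
    rw [mul_comm (Φ y) (ee _), mul_comm _ (ee (ε ^ 2 / (2 * M))), ← mul_assoc, ← mul_assoc,
      ← ee_add, ← ee_add]
    congr 2
    rw [hy]; field_simp; ring
  have herr3 : ‖h y - h y * ee (ε ^ 2 / (2 * M))‖ ≤ 7 * B / M := by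
    rw [← norm_neg, neg_sub, ← mul_sub_one, norm_mul]
    calc ‖h y‖ * ‖ee (ε ^ 2 / (2 * M)) - 1‖
        ≤ B * (2 * Real.pi * |ε ^ 2 / (2 * M)|) :=
          mul_le_mul (hh0 y) (norm_ee_sub_one_le _) (norm_nonneg _) hB0
      _ ≤ B * (7 * (1 / M)) := by
          refine mul_le_mul_of_nonneg_left ?_ hB0
          rw [abs_of_nonneg (by positivity)]
          have h2 : ε ^ 2 ≤ 1 := by nlinarith
          calc 2 * Real.pi * (ε ^ 2 / (2 * M)) ≤ 2 * Real.pi * (1 / (2 * M)) := by gcongr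
            _ = Real.pi * (1 / M) := by field_simp
            _ ≤ 7 * (1 / M) := by gcongr; linarith [Real.pi_lt_four]
      _ = 7 * B / M := by ring
  rw [hsum, hmain, mul_assoc (gauss0 M) _ (Φ y), hfin, mul_assoc, ← mul_sub, ← mul_sub, norm_mul,
    norm_mul, norm_ee, one_mul, norm_gauss0 hM hev]
  have htot := (norm_sub_le_norm_sub_add_norm_sub _ (∑ n ∈ R, co n * ee ((n : ℝ) * k / M)) _).trans
    (add_le_add herr1 ((norm_sub_le_norm_sub_add_norm_sub _ (h y) (h y * ee (ε ^ 2 / (2 * M)))).trans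
      (add_le_add herr2 herr3)))
  refine (mul_le_mul_of_nonneg_left htot (Real.sqrt_nonneg _)).trans (le_of_eq ?_)
  rw [eq_div_iff (Real.sqrt_pos.2 hM').ne', mul_right_comm, Real.mul_self_sqrt hM'.le]
  field_simp
  ring

/-- The chirp sum at any frequency, reduced modulo one into the window. -/
theorem chirp_sum_mod {Φ : ℝ → ℂ} {a : ℝ} (hΦ : ContDiff ℝ 4 Φ)
    (hs : ∀ x, Φ x ≠ 0 → a < x ∧ x < a + 1) :
    ∃ C : ℝ, 0 ≤ C ∧ ∀ M : ℕ, 0 < M → Even M → ∀ (y : ℝ) (T : Finset ℤ),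
      (∀ t : ℤ, Φ (t / M) ≠ 0 → t ∈ T) →
        ‖(∑ t ∈ T, Φ (t / M) * ee ((t : ℝ) ^ 2 / (2 * M) - y * t))
            - gauss0 M * ee (-((M : ℝ) * (y - ⌊y - a⌋) ^ 2) / 2) * Φ (y - ⌊y - a⌋)‖
          ≤ C / Real.sqrt M := by
  obtain ⟨C, hC0, hC⟩ := chirp_sum hΦ hs
  refine ⟨C, hC0, fun M hM hev y T hT => ?_⟩
  have h1 := Int.floor_le (y - a)
  have h2 := Int.lt_floor_add_one (y - a)
  convert hC M hM hev (y - ⌊y - a⌋) (by linarith) (by linarith) T hT using 4 with t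
  congr 1
  rw [← ee_add_int ((t : ℝ) ^ 2 / (2 * M) - y * t) (⌊y - a⌋ * t)]
  congr 1
  push_cast; ring

end Vale.Agent.P110.Exist
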