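import Mathlib

/-!
Exact digit counting on the curve `θ ↦ (L^i θ mod 1)_i` (P110, module M11).
With `Q ∣ L`, each grid cell `[k/(Q L^d), (k+1)/(Q L^d))` has a constant vector of
`⌊Q * fract (L^i θ)⌋`, and every vector is taken by exactly `(L/Q)^d` cells.
-/

namespace Vale.Agent.P110.Curve

open Finset

/-- Coordinate `i` of the cell vector of cell `k`. -/
def cellVec (Q L d : ℕ) [NeZero Q] (k : ℕ) (i : Fin (d + 1)) : Fin Q :=
  ⟨k / L ^ (d - (i : ℕ)) % Q, Nat.mod_lt _ (Nat.pos_of_ne_zero (NeZero.ne Q))⟩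

/-- The cell containing `θ`, modulo 1. -/
noncomputable def cellOf (Q L d : ℕ) (θ : ℝ) : ℕ :=
  ⌊Int.fract θ * ((Q * L ^ d : ℕ) : ℝ)⌋₊

section

variable {Q L : ℕ} [NeZero Q]

theorem cellOf_lt (hL : 0 < L) (d : ℕ) (θ : ℝ) : cellOf Q L d θ < Q * L ^ d := by
  have hM : 0 < Q * L ^ d :=
    Nat.mul_pos (Nat.pos_of_ne_zero (NeZero.ne Q)) (pow_pos hL d)
  refine (Nat.floor_lt (mul_nonneg (Int.fract_nonneg θ) (Nat.cast_nonneg _))).2 ?_
  exact mul_lt_of_lt_one_left (Nat.cast_pos.2 hM) (Int.fract_lt_one θ)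

theorem floor_fract_eq_cellVec (hL : 0 < L) (d : ℕ) (θ : ℝ) (i : Fin (d + 1)) :
    ⌊(Q : ℝ) * Int.fract ((L : ℝ) ^ (i : ℕ) * θ)⌋ = (cellVec Q L d (cellOf Q L d θ) i : ℕ) := by
  have hQ : 0 < Q := Nat.pos_of_ne_zero (NeZero.ne Q)
  have hi : (i : ℕ) ≤ d := Nat.le_of_lt_succ i.2
  have hf : Int.fract ((L : ℝ) ^ (i : ℕ) * θ) =
      Int.fract ((L : ℝ) ^ (i : ℕ) * Int.fract θ) := by
    rw [Int.fract_eq_fract]
    exact ⟨(L : ℤ) ^ (i : ℕ) * ⌊θ⌋, by
      simp only [Int.fract]; push_cast; ring⟩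
  rw [hf]
  set u := Int.fract θ
  set x : ℝ := (L : ℝ) ^ (i : ℕ) * u
  have hu : 0 ≤ u := Int.fract_nonneg θ
  have hx : 0 ≤ x := mul_nonneg (by positivity) hu
  have h1 : ⌊(Q : ℝ) * x⌋₊ = cellOf Q L d θ / L ^ (d - (i : ℕ)) := by
    have e : (Q : ℝ) * x = u * ((Q * L ^ d : ℕ) : ℝ) / ((L ^ (d - (i : ℕ)) : ℕ) : ℝ) := by
      push_cast
      rw [← pow_sub_mul_pow (L : ℝ) hi]
      field_simp
      simp only [x]
      ring
    rw [cellOf, e, Nat.floor_div_natCast]
  have h2 : ⌊x⌋₊ = ⌊(Q : ℝ) * x⌋₊ / Q := by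
    rw [← Nat.floor_div_natCast, mul_div_cancel_left₀ _ (Nat.cast_ne_zero.2 hQ.ne')]
  have h3 : ⌊(Q : ℝ) * Int.fract x⌋ = ⌊(Q : ℝ) * x⌋ - (Q : ℤ) * ⌊x⌋ := by
    rw [Int.fract, mul_sub, ← Int.floor_sub_intCast]
    push_cast
    rfl
  have h4 : ⌊(Q : ℝ) * x⌋ = (⌊(Q : ℝ) * x⌋₊ : ℤ) :=
    (Int.natCast_floor_eq_floor (mul_nonneg (by positivity) hx)).symm
  have h5 : ⌊x⌋ = (⌊x⌋₊ : ℤ) := (Int.natCast_floor_eq_floor hx).symm
  rw [h3, h4, h5, h2, h1]
  simp only [cellVec]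
  have := Nat.mod_add_div (cellOf Q L d θ / L ^ (d - (i : ℕ))) Q
  omega

theorem card_residue (hQL : Q ∣ L) (r : Fin Q) :
    #{a ∈ range L | a % Q = (r : ℕ)} = L / Q := by
  obtain ⟨m, rfl⟩ := hQL
  have hQ : 0 < Q := Nat.pos_of_ne_zero (NeZero.ne Q)
  rw [Nat.mul_div_cancel_left _ hQ]
  conv_rhs => rw [← card_range m]
  refine card_nbij' (fun a => a / Q) (fun j => (r : ℕ) + Q * j) ?_ ?_ ?_ ?_
  · intro a ha
    simp only [coe_filter, Set.mem_ofPred_eq, mem_range] at ha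
    simp only [coe_range, Set.mem_Iio]
    exact Nat.div_lt_of_lt_mul ha.1
  · intro j hj
    simp only [coe_range, Set.mem_Iio] at hj
    simp only [coe_filter, Set.mem_ofPred_eq, mem_range]
    refine ⟨?_, by rw [Nat.add_mul_mod_self_left, Nat.mod_eq_of_lt r.2]⟩
    calc (r : ℕ) + Q * j < Q + Q * j := Nat.add_lt_add_right r.2 _
      _ ≤ Q * m := by rw [add_comm, ← Nat.mul_succ]; exact Nat.mul_le_mul_left Q hj
  · intro a ha
    simp only [coe_filter, Set.mem_ofPred_eq] at ha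
    simp only
    rw [← ha.2, Nat.mod_add_div]
  · intro j _
    simp only
    rw [Nat.add_mul_div_left _ _ hQ, Nat.div_eq_of_lt r.2, zero_add]

theorem card_fiber (hQL : Q ∣ L) (hL : 0 < L) :
    ∀ (d : ℕ) (w : Fin (d + 1) → Fin Q),
      #{k ∈ range (Q * L ^ d) | cellVec Q L d k = w} = (L / Q) ^ d := by
  intro d
  induction d with
  | zero =>
    intro w
    simp only [pow_zero]
    rw [card_eq_one]
    refine ⟨(w 0 : ℕ), ?_⟩
    ext k
    simp only [mem_filter, mem_range, mem_singleton, mul_one, funext_iff, cellVec, Fin.ext_iff]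
    constructor
    · rintro ⟨hk, h⟩
      have := h 0
      simp only [Fin.val_zero, Nat.sub_zero, pow_zero, Nat.div_one, Nat.mod_eq_of_lt hk] at this
      exact this
    · rintro rfl
      refine ⟨(w 0).2, fun i => ?_⟩
      rw [show i = 0 from Fin.ext (by omega)]
      simp [Nat.mod_eq_of_lt (w 0).2]
  | succ d ih =>
    intro w
    rw [pow_succ (L / Q), ← ih (fun i => w i.castSucc),
      ← card_residue hQL (w (Fin.last (d + 1))), ← card_product]
    refine card_nbij' (fun k => (k / L, k % L)) (fun p => p.2 + L * p.1) ?_ ?_ ?_ ?_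
    · intro k hk
      simp only [coe_filter, Set.mem_ofPred_eq, mem_range] at hk
      simp only [coe_product, Set.mem_prod, coe_filter, Set.mem_ofPred_eq, mem_range]
      refine ⟨⟨Nat.div_lt_of_lt_mul (hk.1.trans_le (le_of_eq (by ring))), ?_⟩,
        Nat.mod_lt _ hL, ?_⟩
      · funext i
        rw [← hk.2]
        ext
        simp only [cellVec, Fin.val_castSucc]
        rw [Nat.div_div_eq_div_mul, ← pow_succ',
          show d - (i : ℕ) + 1 = d + 1 - (i : ℕ) by omega]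
      · rw [← hk.2]
        simp [cellVec, Nat.mod_mod_of_dvd k hQL]
    · intro p hp
      simp only [coe_product, Set.mem_prod, coe_filter, Set.mem_ofPred_eq, mem_range] at hp
      obtain ⟨⟨hp1, hp1'⟩, hp2, hp2'⟩ := hp
      simp only [coe_filter, Set.mem_ofPred_eq, mem_range]
      have hdiv : (p.2 + L * p.1) / L = p.1 := by
        rw [Nat.add_mul_div_left _ _ hL, Nat.div_eq_of_lt hp2, zero_add]
      refine ⟨?_, ?_⟩
      · calc p.2 + L * p.1 < L * (p.1 + 1) := by rw [mul_add, mul_one]; omega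
          _ ≤ L * (Q * L ^ d) := Nat.mul_le_mul_left L hp1
          _ = Q * L ^ (d + 1) := by ring
      · funext i
        induction i using Fin.lastCases with
        | last =>
          ext
          simp only [cellVec, Fin.val_last, Nat.sub_self, pow_zero, Nat.div_one]
          obtain ⟨m, hm⟩ := hQL
          rw [← hp2', hm, mul_assoc, Nat.add_mul_mod_self_left]
        | cast j =>
          rw [← congrFun hp1' j]
          ext
          simp only [cellVec, Fin.val_castSucc]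
          rw [show d + 1 - (j : ℕ) = d - (j : ℕ) + 1 by omega, pow_succ',
            ← Nat.div_div_eq_div_mul, hdiv]
    · intro k _
      simp only
      exact Nat.mod_add_div k L
    · intro p hp
      simp only [coe_product, Set.mem_prod, coe_filter, Set.mem_ofPred_eq, mem_range] at hp
      ext
      · simp [Nat.add_mul_div_left _ _ hL, Nat.div_eq_of_lt hp.2.1]
      · simp [Nat.add_mul_mod_self_left, Nat.mod_eq_of_lt hp.2.1]

theorem card_cells (hQL : Q ∣ L) (hL : 0 < L) (d : ℕ) (C : Finset (Fin (d + 1) → Fin Q)) :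
    #{k ∈ range (Q * L ^ d) | cellVec Q L d k ∈ C} = #C * (L / Q) ^ d := by
  rw [card_eq_sum_card_fiberwise (s := {k ∈ range (Q * L ^ d) | cellVec Q L d k ∈ C})
      (f := cellVec Q L d) (t := C)
      (fun k hk => (mem_filter.1 hk).2),
    sum_const_nat fun w hw => ?_]
  rw [← card_fiber hQL hL d w, filter_filter]
  congr 1
  exact filter_congr fun k _ => ⟨fun h => h.2, fun h => ⟨h ▸ hw, h⟩⟩

/-- The proportion of cells in `C` is exactly the volume `#C / Q^(d+1)`. -/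
theorem card_cells_div (hQL : Q ∣ L) (hL : 0 < L) (d : ℕ)
    (C : Finset (Fin (d + 1) → Fin Q)) :
    (#{k ∈ range (Q * L ^ d) | cellVec Q L d k ∈ C} : ℝ) / ((Q * L ^ d : ℕ) : ℝ) =
      (#C : ℝ) / (Q : ℝ) ^ (d + 1) := by
  have hQ : (Q : ℝ) ≠ 0 := Nat.cast_ne_zero.2 (NeZero.ne Q)
  have hL' : (L : ℝ) ≠ 0 := Nat.cast_ne_zero.2 hL.ne'
  rw [card_cells hQL hL, Nat.cast_mul, Nat.cast_pow, Nat.cast_div hQL hQ]
  push_cast
  rw [div_pow]
  field_simp
  ring

end

end Vale.Agent.P110.Curve
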