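import Mathlib
import Vale.Agent.P110.Defs

/-! Definitions and interface statements for the construction of ultraflat sign polynomials.
See `PROOF.md` in this folder. -/

namespace Vale.Agent.P110.Exist

open scoped BigOperators ComplexConjugate
open Finset

/-- `fe x = exp(2π i x)`. -/
noncomputable def fe (x : ℝ) : ℂ := Complex.exp (((2 * Real.pi * x : ℝ) : ℂ) * Complex.I)

/-- The final goal. -/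
def UltraflatGoal : Prop :=
  ∀ η : ℝ, 0 < η → ∀ N₀ : ℕ, ∃ N, N₀ ≤ N ∧ ∃ b : Fin N → Bool, NearFlat (signSeq b) N η

/-- Real coefficients in `[-1,1]` whose polynomial is `√N r U` up to `κ√N`, where `r ≤ 1 + κ` has
mean square at least `1 - κ` and `U` is unimodular with slowly varying frequency in the band. -/
def Core (κ : ℝ) (N : ℕ) : Prop :=
  ∃ (a : ℕ → ℝ) (r : ℝ → ℝ) (U : ℝ → ℂ) (ν : ℝ → ℝ),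
    (∀ k, |a k| ≤ 1) ∧
    (∀ θ, r (θ + 1) = r θ ∧ r (-θ) = r θ ∧ 0 ≤ r θ ∧ r θ ≤ 1 + κ) ∧
    (∀ θ φ, |r θ - r φ| ≤ κ * N * |θ - φ|) ∧
    1 - κ ≤ (∫ θ in (0 : ℝ)..1, r θ ^ 2) ∧
    (∀ θ, |θ| ≤ 1 / (κ * N) → r θ = 0 ∧ r (1 / 2 + θ) = 0) ∧
    (∀ θ, ‖U θ‖ = 1 ∧ U (θ + 1) = U θ ∧ U (-θ) = conj (U θ)) ∧
    (∀ θ, -((1 + κ) * N) ≤ ν θ ∧ ν θ ≤ κ * N) ∧
    (∀ θ s, ‖U (θ + s) - U θ * fe (ν θ * s)‖ ≤ κ * ((N : ℝ) * s) ^ 2) ∧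
    (∀ θ, ‖evalP a N (-(2 * Real.pi * θ)) - ((Real.sqrt N * r θ : ℝ) : ℂ) * U θ‖ ≤
      κ * Real.sqrt N)

/-- Filling and rounding (module Fill). -/
def FillGoal : Prop :=
  ∀ η : ℝ, 0 < η → ∃ κ : ℝ, 0 < κ ∧ ∃ N₀ : ℕ, ∀ N, N₀ ≤ N → Core κ N →
    ∃ M, N ≤ M ∧ ∃ x : ℕ → ℝ, (∀ k < M, x k = 1 ∨ x k = -1) ∧ NearFlat x M η

/-- `g` is a moment sequence on `S` of a probability law on the circle. -/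
def IsMom (S : Finset ℕ) (g : ℕ → ℂ) : Prop :=
  ∃ (n : ℕ) (w ξ : Fin n → ℝ), (∀ i, 0 ≤ w i) ∧ ∑ i, w i = 1 ∧
    ∀ m ∈ S, g m = ∑ i, (w i : ℂ) * fe (m * ξ i)

/-- Residue vectors. -/
abbrev Res {ι : Type} (ℓ : ι → ℕ) : Type := ∀ i, Fin (ℓ i)

/-- Normalised Fourier coefficient on `Res ℓ`. -/
noncomputable def coef {ι : Type} [Fintype ι] [DecidableEq ι] {ℓ : ι → ℕ} (g : Res ℓ → ℂ)
    (u : Res ℓ) : ℂ :=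
  (∏ i, (ℓ i : ℂ))⁻¹ *
    ∑ r : Res ℓ, g r * fe (-∑ i, ((u i : ℕ) : ℝ) * ((r i : ℕ) : ℝ) / (ℓ i : ℝ))

/-- The fine cells of `ℤ/(Jℓ)` met by harmonic `m` of slot `j` at spike `u`. -/
def Hits (J ℓ m j u φ : ℕ) : Prop := ∃ k < m, φ ≡ u * J + m * j + k [MOD J * ℓ]

/-- A finite design: letters on segments whose boxes are disjoint, of height at most `1 + κ` and
total energy at least `1 - κ`. -/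
structure Design (κ : ℝ) (ι : Type) [Fintype ι] [DecidableEq ι] where
  J : ℕ
  top : ι
  ℓ : ι → ℕ
  S : Finset ℕ
  c : ℕ → ℂ
  T : Finset (ι → ℕ)
  g : (ι → ℕ) → ℕ → Res ℓ → ℂ
  J_even : Even J
  J_pos : 0 < J
  ℓ_pos : ∀ i, 0 < ℓ i
  two_le : 2 ≤ Fintype.card ι
  S_dvd : ∀ m ∈ S, Odd m ∧ m ∣ J
  wave : ∀ x : ℝ, |∑ m ∈ S, 2 * (c m * fe (m * x)).re| ≤ 1
  seg : ∀ j ∈ T, (∀ i, j i < J) ∧ 2 * j top < J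
  mom : ∀ j ∈ T, ∀ r, IsMom S (fun m => g j m r)
  bound : ∀ j ∈ T, ∀ m ∈ S, ∀ u,
    2 * ‖c m‖ ^ 2 * ‖coef (g j m) u‖ ^ 2 * ∏ i, ((ℓ i : ℝ) / (m : ℝ)) ≤ (1 + κ) ^ 2
  energy : (1 - κ) * (J : ℝ) ^ Fintype.card ι ≤
    ∑ j ∈ T, ∑ m ∈ S, 4 * ‖c m‖ ^ 2 * ∑ u, ‖coef (g j m) u‖ ^ 2
  disjoint : ∀ j ∈ T, ∀ j' ∈ T, ∀ m ∈ S, ∀ m' ∈ S, ∀ u u',
    coef (g j m) u ≠ 0 → coef (g j' m') u' ≠ 0 →
    ∀ φ : ι → ℕ, (∀ i, φ i < J * ℓ i) → (∀ i, Hits J (ℓ i) m (j i) (u i) (φ i)) →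
      ((∀ i, Hits J (ℓ i) m' (j' i) (u' i) (φ i)) → j = j' ∧ m = m' ∧ u = u') ∧
      ¬ ∀ i, Hits J (ℓ i) m' (j' i) (u' i) (J * ℓ i - 1 - φ i)

/-- From a design to cores of all large lengths `L^D/2` (module Analysis). -/
def AnalysisGoal : Prop :=
  ∀ κ : ℝ, 0 < κ → ∃ κ' : ℝ, 0 < κ' ∧ ∀ (ι : Type) [Fintype ι] [DecidableEq ι],
    Nonempty (Design κ' ι) → ∀ N₀ : ℕ, ∃ N, N₀ ≤ N ∧ Core κ N

/-- Existence of designs (module Design). -/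
def DesignGoal : Prop :=
  ∀ κ : ℝ, 0 < κ →
    ∃ (ι : Type) (_ : Fintype ι) (_ : DecidableEq ι), Nonempty (Design κ ι)

/-- One coordinate Fourier coefficient. -/
noncomputable def coef1 (ℓ : ℕ) (g : ℕ → ℂ) (u : ℕ) : ℂ :=
  (ℓ : ℂ)⁻¹ * ∑ r ∈ range ℓ, g r * fe (-((u : ℝ) * r / ℓ))

/-- Two coordinate Fourier coefficient. -/
noncomputable def coef2 (ℓ Y : ℕ) (g : ℕ → ℕ → ℂ) (a v : ℕ) : ℂ :=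
  coef1 ℓ (fun x => coef1 Y (g x) v) a

/-- Character letters: exact collapse for `q ∣ m`, flat spread otherwise. -/
def CharLetterGoal : Prop :=
  ∀ (S : Finset ℕ) (ℓ q b : ℕ), ℓ.Prime → 1 < q → q ∣ ℓ - 1 →
    ∃ g : ℕ → ℕ → ℂ, (∀ r, IsMom S (fun m => g m r)) ∧ ∀ m ∈ S, ∀ u < ℓ,
      ‖coef1 ℓ (g m) u‖ ^ 2 =
        if q ∣ m then (if u = m * b % ℓ then 1 else 0)
        else (if u = m * b % ℓ then 0 else 1 / (ℓ : ℝ))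

/-- Deleting few frequencies of each moment by a small mixture. -/
def ProjGoal : Prop :=
  ∀ (S : Finset ℕ) (ℓ : ℕ) (g : ℕ → ℕ → ℂ) (Rem : ℕ → Finset ℕ) (ε : ℝ),
    0 < ℓ → (∀ m ∈ S, 0 < m) → 0 < ε → ε ≤ 1 → (∀ r, IsMom S (fun m => g m r)) →
    (∀ m ∈ S, Rem m ⊆ range ℓ) →
    (∀ m ∈ S, ∑ u ∈ Rem m, ‖coef1 ℓ (g m) u‖ ≤ ε / (2 * S.card)) →
    ∃ g' : ℕ → ℕ → ℂ, (∀ r, IsMom S (fun m => g' m r)) ∧ ∀ m ∈ S, ∀ u < ℓ,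
      coef1 ℓ (g' m) u = if u ∈ Rem m then 0 else (1 - ε : ℝ) * coef1 ℓ (g m) u

/-- Quadratic letters. -/
def QuadLetterGoal : Prop :=
  ∀ (S : Finset ℕ) (n : ℕ), Odd n → (∀ m ∈ S, Nat.Coprime m n) →
    ∃ g : ℕ → ℕ → ℂ, (∀ r, IsMom S (fun m => g m r)) ∧
      ∀ m ∈ S, ∀ u < n, ‖coef1 n (g m) u‖ ^ 2 = 1 / (n : ℝ)

/-- Bent pairs supported on an arbitrary set of `Y` frequencies. -/
def PairLetterGoal : Prop :=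
  ∀ (S : Finset ℕ) (ℓ Y : ℕ) (A : Finset ℕ), 0 < Y → A ⊆ range ℓ → A.card = Y →
    (∀ m ∈ S, Nat.Coprime m ℓ) →
    ∃ g : ℕ → ℕ → ℕ → ℂ, (∀ x y, IsMom S (fun m => g m x y)) ∧
      ∀ m ∈ S, ∀ a < ℓ, ∀ v < Y,
        ‖coef2 ℓ Y (g m) a v‖ ^ 2 =
          if ∃ w ∈ A, a = m * w % ℓ then 1 / (Y : ℝ) ^ 2 else 0

/-- Products of single and paired coordinates. -/
def ProdLetterGoal : Prop :=
  ∀ (A B : Type) [Fintype A] [DecidableEq A] [Fintype B] [DecidableEq B] (S : Finset ℕ)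
    (la : A → ℕ) (lb : B × Bool → ℕ) (ga : A → ℕ → ℕ → ℂ) (gb : B → ℕ → ℕ → ℕ → ℂ),
    (∀ i r, IsMom S (fun m => ga i m r)) → (∀ i x y, IsMom S (fun m => gb i m x y)) →
    ∃ g : ℕ → Res (Sum.elim la lb) → ℂ, (∀ r, IsMom S (fun m => g m r)) ∧
      ∀ (m : ℕ) (u : Res (Sum.elim la lb)),
        coef (g m) u = (∏ i, coef1 (la i) (ga i m) (u (Sum.inl i))) *
          ∏ i, coef2 (lb (i, false)) (lb (i, true)) (gb i m)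
            (u (Sum.inr (i, false))) (u (Sum.inr (i, true)))

/-- Finite waves bounded by one with almost full mean square. -/
def WaveGoal : Prop :=
  ∀ κ : ℝ, 0 < κ → ∃ (S : Finset ℕ) (c : ℕ → ℂ), (∀ m ∈ S, Odd m) ∧
    (∀ x : ℝ, |∑ m ∈ S, 2 * (c m * fe (m * x)).re| ≤ 1) ∧
    (∀ m ∈ S, ‖c m‖ ≤ 2 / (Real.pi * m)) ∧ 1 - κ ≤ ∑ m ∈ S, 2 * ‖c m‖ ^ 2

/-- The Euler product bound. -/
def EulerGoal : Prop :=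
  ∀ P : Finset ℕ, (∀ p ∈ P, p.Prime ∧ Odd p) →
    8 / Real.pi ^ 2 * ∏ p ∈ P, (1 - 1 / (p : ℝ) ^ 2)⁻¹ ≤ 1

/-- Følner sets for `ξ ↦ kξ + i` in `ℤ/ℓ`. -/
def FolnerGoal : Prop :=
  ∀ (K P h₀ : ℕ) (κ : ℝ), 0 < κ → Odd P →
    ∃ B : ℕ, ∀ ℓ : ℕ, ℓ.Prime → B ≤ ℓ → ∃ H H' E : Finset (ZMod ℓ),
      h₀ ≤ H.card ∧ E.card ≤ B ∧
      (∀ x ∈ H, -1 - x ∈ H) ∧ (∀ x ∈ H', -1 - x ∈ H') ∧ (∀ x ∈ E, -1 - x ∈ E) ∧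
      (∀ k : ℕ, Odd k → k ≤ K → ∀ i : ℤ, |i| ≤ K →
        (∀ x ∈ H, (k : ZMod ℓ) * x + i ∈ H') ∧
        ∀ x, (k : ZMod ℓ) * x + i ∈ H' → x ∈ E) ∧
      (H'.card : ℝ) ≤ (1 + κ) * H.card ∧ (E.card : ℝ) ≤ (1 + κ) * H.card ∧
      (∀ c : ℤ, |c| ≤ K →
        ((E ∪ E.image fun x => (c : ZMod ℓ) - x).card : ℝ) ≤ (1 + κ) * H.card) ∧
      Nat.Coprime (ℓ - E.card) (2 * P)

/-- Prime pairs whose logarithms tune every large target. -/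
def PrimePairGoal : Prop :=
  ∀ (P B : ℕ) (κ : ℝ), 0 < P → 0 < κ → ∃ ℓ ℓ' : ℕ, ℓ.Prime ∧ ℓ'.Prime ∧ B ≤ ℓ ∧ ℓ < ℓ' ∧
    ℓ' ≤ 2 * ℓ ∧ ℓ % P = 1 % P ∧ ℓ' % P = 1 % P ∧
    ∀ T : ℝ, 3 * Real.sqrt ℓ * Real.log ℓ ≤ T →
      ∃ L₁ L₂ : ℕ, (L₂ : ℝ) ≤ Real.sqrt ℓ ∧
        T ≤ L₁ * Real.log ℓ + L₂ * Real.log ℓ' ∧
        (L₁ * Real.log ℓ + L₂ * Real.log ℓ' : ℝ) ≤ T + κ

end Vale.Agent.P110.Exist
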