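import Mathlib.NumberTheory.LSeries.PrimesInAP
import Mathlib.Analysis.SpecialFunctions.Pow.Asymptotics

/-!
# P110, M6: a pair of primes in a residue class whose logarithms tune every large target

Two primes `l < l2` congruent to `1` mod `P` with `l ^ 0.6 ≤ l2 - l ≤ η l`: otherwise the primes
of the class in each block `[r ^ k, r ^ (k+1))` would lie in one short interval, and the sum of
`log p / p` over the class would converge.
-/

noncomputable section

namespace Vale.Agent.P110.Exist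

open Filter Finset ArithmeticFunction

/-- For every residue `1` mod `P`: two large primes of the class at a middle distance. -/
theorem prime_gap_middle {P : ℕ} (hP : P ≠ 0) {η : ℝ} (hη : 0 < η) (l0 : ℕ) :
    ∃ l l2 : ℕ, l.Prime ∧ l2.Prime ∧ l0 ≤ l ∧ l < l2 ∧ (l : ZMod P) = 1 ∧ (l2 : ZMod P) = 1 ∧
      (l : ℝ) ^ (3 / 5 : ℝ) ≤ (l2 : ℝ) - l ∧ (l2 : ℝ) - l ≤ η * l := by
  classical
  have : NeZero P := ⟨hP⟩
  by_contra hcon
  push Not at hcon
  apply vonMangoldt.not_summable_residueClass_prime_div (q := P) (a := 1) isUnit_one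
  set f : ℕ → ℝ := fun n ↦ (if n.Prime then vonMangoldt.residueClass (1 : ZMod P) n else 0) / n
    with hf
  set r : ℝ := 1 + η with hr
  have hr1 : 1 < r := by linarith
  have hr0 : 0 < r := by linarith
  have hlr : 0 < Real.log r := Real.log_pos hr1
  set ρ : ℝ := r ^ (-(1 / 5 : ℝ)) with hρ
  have hρ0 : 0 ≤ ρ := Real.rpow_nonneg hr0.le _
  have hρ1 : ρ < 1 := Real.rpow_lt_one_of_one_lt_of_neg hr1 (by norm_num)
  have hf0 : ∀ n, 0 ≤ f n := by
    intro n
    simp only [hf]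
    refine div_nonneg ?_ (Nat.cast_nonneg _)
    split_ifs
    · exact vonMangoldt.residueClass_nonneg _ _
    · exact le_rfl
  have hle : ∀ n : ℕ, f n ≠ 0 → n.Prime ∧ (n : ZMod P) = 1 ∧ f n ≤ Real.log n / n := by
    intro n hn
    have hmem : n ∈ {p : ℕ | p.Prime ∧ (p : ZMod P) = 1} := by
      rw [← vonMangoldt.support_residueClass_prime_div]
      exact hn
    refine ⟨hmem.1, hmem.2, ?_⟩
    simp only [hf, if_pos hmem.1]
    refine div_le_div_of_nonneg_right ?_ (Nat.cast_nonneg _)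
    exact (vonMangoldt.residueClass_le _ _).trans vonMangoldt_le_log
  let g : ℕ → ℝ := fun n ↦ if l0 ≤ n then f n else 0
  suffices hg : Summable g by
    have h2 : Summable (fun n ↦ f n - g n) := by
      refine summable_of_ne_finset_zero (s := range l0) fun n hn ↦ ?_
      simp only [mem_range, not_lt] at hn
      simp [g, if_pos hn]
    simpa using hg.add h2
  let κ : ℕ → ℕ := fun n ↦ ⌊Real.log n / Real.log r⌋₊
  have hblock : ∀ (s : Finset ℕ) (k : ℕ), (∀ n ∈ s, g n ≠ 0 ∧ κ n = k) →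
      ∑ n ∈ s, g n ≤ 15 * ρ ^ k := by
    intro s k hs
    rcases s.eq_empty_or_nonempty with rfl | hne
    · simp; positivity
    set l := s.min' hne with hl
    have hls : l ∈ s := s.min'_mem hne
    have hprop : ∀ n ∈ s, n.Prime ∧ (n : ZMod P) = 1 ∧ l0 ≤ n ∧ g n ≤ Real.log n / n ∧
        r ^ k ≤ (n : ℝ) ∧ (n : ℝ) < r ^ (k + 1) := by
      intro n hn
      obtain ⟨hgn, hk⟩ := hs n hn
      have hl0 : l0 ≤ n := by
        by_contra h
        exact hgn (if_neg h)
      have hgf : g n = f n := if_pos hl0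
      obtain ⟨h1, h2, h3⟩ := hle n (hgf ▸ hgn)
      have hn1 : (1 : ℝ) ≤ n := Nat.one_le_cast.2 h1.one_le
      have hn0 : (0 : ℝ) < n := lt_of_lt_of_le one_pos hn1
      have hd : 0 ≤ Real.log n / Real.log r := div_nonneg (Real.log_nonneg hn1) hlr.le
      have hlo := Nat.floor_le hd
      have hhi := Nat.lt_floor_add_one (Real.log n / Real.log r)
      simp only [κ] at hk
      rw [hk, le_div_iff₀ hlr] at hlo
      rw [hk, div_lt_iff₀ hlr] at hhi
      refine ⟨h1, h2, hl0, hgf.trans_le h3, ?_, ?_⟩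
      · rw [← Real.log_le_log_iff (pow_pos hr0 k) hn0, Real.log_pow]
        exact hlo
      · rw [← Real.log_lt_log_iff hn0 (pow_pos hr0 _), Real.log_pow]
        push_cast
        exact hhi
    obtain ⟨hlp, hlc, hll, -, hlk, -⟩ := hprop l hls
    have hl1 : (1 : ℝ) ≤ l := Nat.one_le_cast.2 hlp.one_le
    have hlpos : (0 : ℝ) < l := lt_of_lt_of_le one_pos hl1
    have hsub : ∀ n ∈ s, (n : ℝ) < l + (l : ℝ) ^ (3 / 5 : ℝ) := by
      intro n hn
      rcases (s.min'_le n hn).eq_or_lt with he | hlt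
      · have := Real.rpow_pos_of_pos hlpos (3 / 5 : ℝ)
        rw [← hl] at he
        rw [← he]
        linarith
      · obtain ⟨h1, h2, -, -, -, hnk⟩ := hprop n hn
        by_contra hge
        push Not at hge
        have h3 := hcon l n hlp h1 hll hlt hlc h2 (by linarith)
        have : (n : ℝ) ≤ r * l := by
          refine hnk.le.trans ?_
          rw [pow_succ']
          exact mul_le_mul_of_nonneg_left hlk hr0.le
        rw [hr] at this
        linarith
    set w : ℝ := (l : ℝ) ^ (3 / 5 : ℝ) with hw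
    have hw1 : 1 ≤ w := Real.one_le_rpow hl1 (by norm_num)
    have hcard : (s.card : ℝ) ≤ 3 * w := by
      have hss : s ⊆ Finset.Ico l (l + (⌈w⌉₊ + 1)) := by
        intro n hn
        rw [Finset.mem_Ico]
        refine ⟨s.min'_le n hn, ?_⟩
        have := hsub n hn
        have hc := Nat.le_ceil w
        have : (n : ℝ) < ((l + (⌈w⌉₊ + 1) : ℕ) : ℝ) := by push_cast; linarith
        exact_mod_cast this
      have h := card_le_card hss
      rw [Nat.card_Ico, Nat.add_sub_cancel_left] at h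
      have h' : (s.card : ℝ) ≤ ((⌈w⌉₊ + 1 : ℕ) : ℝ) := by exact_mod_cast h
      have := Nat.ceil_lt_add_one (show 0 ≤ w by linarith)
      push_cast at h'
      linarith
    have hterm : ∀ n ∈ s, g n ≤ 5 * (l : ℝ) ^ (-(4 / 5) : ℝ) := by
      intro n hn
      obtain ⟨h1, -, -, hgl, -, -⟩ := hprop n hn
      have hn0 : (0 : ℝ) < n := Nat.cast_pos.2 h1.pos
      refine hgl.trans ?_
      have h5 : Real.log n ≤ (n : ℝ) ^ (1 / 5 : ℝ) / (1 / 5 : ℝ) :=
        Real.log_le_rpow_div hn0.le (by norm_num)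
      calc Real.log n / n ≤ (n : ℝ) ^ (1 / 5 : ℝ) / (1 / 5 : ℝ) / n :=
            div_le_div_of_nonneg_right h5 hn0.le
        _ = 5 * (n : ℝ) ^ (-(4 / 5) : ℝ) := by
            rw [show (-(4 / 5) : ℝ) = 1 / 5 - 1 by norm_num, Real.rpow_sub_one hn0.ne']
            ring
        _ ≤ 5 * (l : ℝ) ^ (-(4 / 5) : ℝ) := by
            refine mul_le_mul_of_nonneg_left ?_ (by norm_num)
            exact Real.rpow_le_rpow_of_nonpos hlpos (Nat.cast_le.2 (s.min'_le n hn)) (by norm_num)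
    calc ∑ n ∈ s, g n ≤ s.card • (5 * (l : ℝ) ^ (-(4 / 5) : ℝ)) := sum_le_card_nsmul _ _ _ hterm
      _ = (s.card : ℝ) * (5 * (l : ℝ) ^ (-(4 / 5) : ℝ)) := by rw [nsmul_eq_mul]
      _ ≤ 3 * w * (5 * (l : ℝ) ^ (-(4 / 5) : ℝ)) :=
          mul_le_mul_of_nonneg_right hcard (by positivity)
      _ = 15 * (l : ℝ) ^ (-(1 / 5) : ℝ) := by
          rw [show (-(1 / 5) : ℝ) = 3 / 5 + -(4 / 5) by norm_num, Real.rpow_add hlpos, hw]
          ring
      _ ≤ 15 * ρ ^ k := by
          refine mul_le_mul_of_nonneg_left ?_ (by norm_num)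
          rw [hρ, Real.rpow_pow_comm hr0.le]
          exact Real.rpow_le_rpow_of_nonpos (pow_pos hr0 k) hlk (by norm_num)
  have hg0 : ∀ n, 0 ≤ g n := fun n ↦ by
    simp only [g]
    split_ifs
    · exact hf0 n
    · exact le_rfl
  refine summable_of_sum_le hg0 (c := 15 * ∑' k, ρ ^ k) fun u ↦ ?_
  rw [← sum_filter_ne_zero u, ← sum_fiberwise_of_maps_to (g := κ)
    (t := (u.filter fun n ↦ g n ≠ 0).image κ) (fun n hn ↦ mem_image_of_mem κ hn)]
  refine (sum_le_sum fun k _ ↦ hblock _ k fun n hn ↦ ?_).trans ?_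
  · simp only [mem_filter] at hn
    exact ⟨hn.1.2, hn.2⟩
  · rw [← mul_sum]
    refine mul_le_mul_of_nonneg_left ?_ (by norm_num)
    exact (summable_geometric_of_lt_one hρ0 hρ1).sum_le_tsum _ fun _ _ ↦ pow_nonneg hρ0 _

/-- M6: two large primes `l < l2`, both `1` mod `P`, with `log (l2 / l) ≤ η`, such that every
target `T ≥ l ^ 0.45 log l` is within `η` below of some `L1 log l + L2 log l2`. -/
theorem prime_pair {P : ℕ} (hP : P ≠ 0) {η : ℝ} (hη : 0 < η) (l0 : ℕ) :
    ∃ l l2 : ℕ, l.Prime ∧ l2.Prime ∧ l0 ≤ l ∧ l < l2 ∧ (l : ZMod P) = 1 ∧ (l2 : ZMod P) = 1 ∧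
      Real.log l2 - Real.log l ≤ η ∧
      ∀ T : ℝ, (l : ℝ) ^ (9 / 20 : ℝ) * Real.log l ≤ T → ∃ L1 L2 : ℕ,
        (L2 : ℝ) ≤ (l : ℝ) ^ (9 / 20 : ℝ) ∧ ((L1 : ℝ) + L2) * Real.log l ≤ T ∧
        (L1 : ℝ) * Real.log l + L2 * Real.log l2 ≤ T ∧
        T ≤ (L1 : ℝ) * Real.log l + L2 * Real.log l2 + η := by
  have hev : ∀ᶠ x : ℝ in atTop,
      ‖Real.log x‖ ≤ (1 / 4) * ‖x ^ (1 / 20 : ℝ)‖ :=
    (isLittleO_log_rpow_atTop (by norm_num)).bound (by norm_num)
  obtain ⟨x₁, hx₁⟩ := eventually_atTop.1 hev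
  set η' := min η 1 with hη'
  have hη'0 : 0 < η' := lt_min hη one_pos
  obtain ⟨l, l2, hp, hp2, hl0, hlt, hc, hc2, hgap, hgapu⟩ :=
    prime_gap_middle hP hη'0 (max l0 (max ⌈x₁⌉₊ 3))
  simp only [max_le_iff] at hl0
  obtain ⟨hl0, hlx, hl3⟩ := hl0
  have hlR : (3 : ℝ) ≤ l := by exact_mod_cast hl3
  have hlpos : (0 : ℝ) < l := by linarith
  have h2pos : (0 : ℝ) < l2 := Nat.cast_pos.2 hp2.pos
  have hlogl : 1 ≤ Real.log l := by
    rw [Real.le_log_iff_exp_le hlpos]
    linarith [Real.exp_one_lt_d9]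
  set δ := Real.log l2 - Real.log l with hδ
  have hδdiv : δ = Real.log ((l2 : ℝ) / l) := (Real.log_div h2pos.ne' hlpos.ne').symm
  have hu : δ ≤ ((l2 : ℝ) - l) / l := by
    rw [hδdiv, sub_div, div_self hlpos.ne']
    exact Real.log_le_sub_one_of_pos (div_pos h2pos hlpos)
  have hηl : ((l2 : ℝ) - l) / l ≤ η' := (div_le_iff₀ hlpos).2 hgapu
  have hlow : ((l2 : ℝ) - l) / l2 ≤ δ := by
    have h := Real.one_sub_inv_le_log_of_pos (div_pos h2pos hlpos)
    rw [hδdiv]
    refine le_trans (le_of_eq ?_) h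
    rw [inv_div, sub_div, div_self h2pos.ne']
  set W : ℝ := (l : ℝ) ^ (9 / 20 : ℝ) with hW
  set a : ℝ := (l : ℝ) ^ (3 / 5 : ℝ) with ha
  have hapos : 0 < a := Real.rpow_pos_of_pos hlpos _
  have hWpos : 0 < W := Real.rpow_pos_of_pos hlpos _
  have h2l : (l2 : ℝ) ≤ 2 * l := by
    have h1 : η' * l ≤ 1 * l := mul_le_mul_of_nonneg_right (min_le_right _ _) hlpos.le
    linarith
  have hδlow : a / (2 * l) ≤ δ :=
    (div_le_div_of_nonneg_left hapos.le h2pos h2l).trans
      ((div_le_div_of_nonneg_right hgap h2pos.le).trans hlow)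
  have hδpos : 0 < δ := lt_of_lt_of_le (by positivity) hδlow
  have hkey : Real.log l / δ ≤ W / 2 := by
    have hlog : Real.log l ≤ (1 / 4) * (l : ℝ) ^ (1 / 20 : ℝ) := by
      have := hx₁ l ((Nat.le_ceil x₁).trans (Nat.cast_le.2 hlx))
      rwa [Real.norm_of_nonneg (by linarith), Real.norm_of_nonneg (Real.rpow_nonneg hlpos.le _)]
        at this
    have hid : (l : ℝ) ^ (1 / 20 : ℝ) * l = W * a := by
      rw [hW, ha, ← Real.rpow_add hlpos, ← Real.rpow_add_one hlpos.ne']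
      norm_num
    rw [div_le_iff₀ hδpos]
    calc Real.log l ≤ (1 / 4) * (l : ℝ) ^ (1 / 20 : ℝ) := hlog
      _ = W / 2 * (a / (2 * l)) := by
          field_simp
          linarith [hid]
      _ ≤ W / 2 * δ := by gcongr
  refine ⟨l, l2, hp, hp2, hl0, hlt, hc, hc2, hu.trans (hηl.trans (min_le_left _ _)),
    fun T hT ↦ ?_⟩
  have hT0 : 0 ≤ T := le_trans (by positivity) hT
  set L : ℕ := ⌊T / Real.log l⌋₊ with hL
  set r : ℝ := T - L * Real.log l with hr
  have hlog0 : 0 < Real.log l := by linarith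
  have h1 : (L : ℝ) * Real.log l ≤ T :=
    (le_div_iff₀ hlog0).1 (Nat.floor_le (div_nonneg hT0 hlog0.le))
  have h2 : T < ((L : ℝ) + 1) * Real.log l := (div_lt_iff₀ hlog0).1 (Nat.lt_floor_add_one _)
  have hr0 : 0 ≤ r := sub_nonneg.2 h1
  have hr1 : r < Real.log l := by linarith
  set L2 : ℕ := ⌊r / δ⌋₊ with hL2
  have h3 : (L2 : ℝ) * δ ≤ r := (le_div_iff₀ hδpos).1 (Nat.floor_le (div_nonneg hr0 hδpos.le))
  have h4 : r < ((L2 : ℝ) + 1) * δ := (div_lt_iff₀ hδpos).1 (Nat.lt_floor_add_one _)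
  have hL2W : (L2 : ℝ) ≤ W / 2 :=
    ((Nat.floor_le (div_nonneg hr0 hδpos.le)).trans
      (div_le_div_of_nonneg_right hr1.le hδpos.le)).trans hkey
  have hW1 : (2 : ℝ) ≤ W := by
    have hδ1 : δ ≤ 1 := hu.trans (hηl.trans (min_le_right _ _))
    have : 1 ≤ Real.log l / δ := (one_le_div hδpos).2 (hδ1.trans hlogl)
    linarith
  have hLW : W < (L : ℝ) + 1 := by
    have : W ≤ T / Real.log l := (le_div_iff₀ hlog0).2 hT
    exact this.trans_lt (Nat.lt_floor_add_one _)
  have hle : L2 ≤ L := by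
    have : (L2 : ℝ) ≤ L := by linarith
    exact_mod_cast this
  refine ⟨L - L2, L2, by linarith, ?_, ?_, ?_⟩
  all_goals rw [Nat.cast_sub hle]
  · simpa using h1
  · rw [hδ] at h3
    linarith
  · have hδη : δ ≤ η := hu.trans (hηl.trans (min_le_left _ _))
    rw [hδ] at h4
    linarith

end Vale.Agent.P110.Exist
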