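import Vale.Agent.P110.Exist.Defs
import Vale.Agent.P110.Exist.PrimePair

/-! The interface statement `PrimePairGoal`, from `prime_pair`. -/

noncomputable section

namespace Vale.Agent.P110.Exist

theorem primePairGoal : PrimePairGoal := by
  intro P B κ hP hκ
  set η := min κ (Real.log 2) with hη
  have hη0 : 0 < η := lt_min hκ (Real.log_pos one_lt_two)
  obtain ⟨l, l2, hp, hp2, hB, hlt, hc, hc2, hd, htune⟩ := prime_pair hP.ne' hη0 B
  have hlR : (2 : ℝ) ≤ l := by exact_mod_cast hp.two_le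
  have hlpos : (0 : ℝ) < l := by linarith
  have h2pos : (0 : ℝ) < l2 := Nat.cast_pos.2 hp2.pos
  have hmod : ∀ n : ℕ, (n : ZMod P) = 1 → n % P = 1 % P := fun n hn ↦
    (ZMod.natCast_eq_natCast_iff' n 1 P).1 (by simpa using hn)
  refine ⟨l, l2, hp, hp2, hB, hlt, ?_, hmod l hc, hmod l2 hc2, fun T hT ↦ ?_⟩
  · have h : (l2 : ℝ) ≤ 2 * l := by
      rw [← Real.log_le_log_iff h2pos (by positivity), Real.log_mul two_ne_zero hlpos.ne']
      linarith [min_le_right κ (Real.log 2)]
    exact_mod_cast h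
  · have hpow : (l : ℝ) ^ (9 / 20 : ℝ) ≤ Real.sqrt l := by
      rw [Real.sqrt_eq_rpow]
      exact Real.rpow_le_rpow_of_exponent_le (by linarith) (by norm_num)
    have hlog : 0 ≤ Real.log l := Real.log_nonneg (by linarith)
    have hT' : (l : ℝ) ^ (9 / 20 : ℝ) * Real.log l ≤ T + η := by
      have h1 := mul_le_mul_of_nonneg_right hpow hlog
      have h2 := mul_nonneg (Real.sqrt_nonneg (l : ℝ)) hlog
      linarith
    obtain ⟨L1, L2, h1, -, h3, h4⟩ := htune (T + η) hT'
    exact ⟨L1, L2, h1.trans hpow, by linarith, h3.trans (by linarith [min_le_left κ (Real.log 2)])⟩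

end Vale.Agent.P110.Exist
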