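import Vale.Agent.P110.Exist.Defs

/-! # Waves: Fejér means of the square wave, and the Euler product bound -/

namespace Vale.Agent.P110.Exist

open scoped BigOperators ComplexConjugate
open Finset intervalIntegral

namespace Wave

lemma fe_add (a b : ℝ) : fe (a + b) = fe a * fe b := by
  rw [fe, fe, fe, ← Complex.exp_add]
  push_cast
  ring_nf

lemma fe_zero : fe 0 = 1 := by simp [fe]

lemma conj_fe (a : ℝ) : conj (fe a) = fe (-a) := by
  rw [fe, fe, ← Complex.exp_conj, map_mul, Complex.conj_ofReal, Complex.conj_I]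
  push_cast
  ring_nf

lemma continuous_fe : Continuous fe := by unfold fe; fun_prop

lemma fe_int (n : ℤ) : fe n = 1 := by
  rw [fe]
  convert Complex.exp_int_mul_two_pi_mul_I n using 2
  push_cast
  ring

lemma fe_half (n : ℤ) : fe ((n : ℝ) / 2) = (-1) ^ n := by
  rw [fe, ← Complex.exp_pi_mul_I, ← Complex.exp_int_mul]
  congr 1
  push_cast
  ring

/-- The Fourier coefficients of the square wave. -/
noncomputable def sw (n : ℤ) : ℂ :=
  (∫ y in (0 : ℝ)..1 / 2, fe (-(n * y))) - ∫ y in (1 / 2 : ℝ)..1, fe (-(n * y))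

lemma integral_fe {n : ℤ} (hn : n ≠ 0) (a b : ℝ) :
    ∫ y in a..b, fe (-(n * y)) =
      (fe (-(n * b)) - fe (-(n * a))) / (-(2 * Real.pi * n) * Complex.I) := by
  have hc : (-(2 * Real.pi * n) * Complex.I : ℂ) ≠ 0 := by simp [Real.pi_ne_zero, hn]
  have h : ∀ y : ℝ, fe (-(n * y)) = Complex.exp (-(2 * Real.pi * n) * Complex.I * y) := fun y => by
    rw [fe]; push_cast; ring_nf
  simp only [h]
  exact integral_exp_mul_complex hc

lemma sw_zero : sw 0 = 0 := by
  simp [sw, fe_zero]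
  norm_num

lemma sw_eq {n : ℤ} (hn : n ≠ 0) :
    sw n = (2 * (-1) ^ n - 2) / (-(2 * Real.pi * n) * Complex.I) := by
  have h1 : fe (-((n : ℝ) * (1 / 2))) = (-1) ^ n := by
    rw [show -((n : ℝ) * (1 / 2)) = ((-n : ℤ) : ℝ) / 2 by push_cast; ring, fe_half, zpow_neg,
      ← inv_zpow]
    norm_num
  have h2 : fe (-((n : ℝ) * 1)) = 1 := by
    rw [show -((n : ℝ) * 1) = ((-n : ℤ) : ℝ) by push_cast; ring]
    exact fe_int _
  rw [sw, integral_fe hn, integral_fe hn, h1, h2, mul_zero, neg_zero, fe_zero]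
  ring

lemma conj_sw (n : ℤ) : sw (-n) = conj (sw n) := by
  rcases eq_or_ne n 0 with rfl | hn
  · simp [sw_zero]
  rw [sw_eq hn, sw_eq (neg_ne_zero.2 hn)]
  simp [zpow_neg, map_div₀, map_zpow₀, ← inv_zpow, map_ofNat]

lemma sw_even {n : ℤ} (hn : Even n) : sw n = 0 := by
  rcases eq_or_ne n 0 with rfl | h0
  · exact sw_zero
  · simp [sw_eq h0, hn.neg_one_zpow]

lemma norm_sw_odd {m : ℕ} (hm : Odd m) : ‖sw (m : ℤ)‖ = 2 / (Real.pi * m) := by
  have h0 : (0 : ℝ) < m := Nat.cast_pos.2 hm.pos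
  have h1 : ((m : ℤ)) ≠ 0 := by exact_mod_cast hm.pos.ne'
  rw [sw_eq h1, zpow_natCast, hm.neg_one_pow, norm_div,
    show (2 * (-1) - 2 : ℂ) = ((-4 : ℝ) : ℂ) by push_cast; ring, Complex.norm_real]
  simp [abs_of_pos Real.pi_pos]
  field_simp
  norm_num

/-- A double sum over `k - l`. -/
lemma double_sum (a : ℤ → ℂ) (h0 : a 0 = 0) (hc : ∀ n, a (-n) = conj (a n)) (N : ℕ) :
    ∑ k ∈ range N, ∑ l ∈ range N, a ((k : ℤ) - l) =
      ∑ m ∈ range N, (((N : ℝ) - m) * (2 * (a m).re) : ℝ) := by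
  induction N with
  | zero => simp
  | succ N ih =>
    have h1 : ∀ n : ℤ, a n + a (-n) = ((2 * (a n).re : ℝ) : ℂ) := fun n => by
      rw [hc, Complex.add_conj]
    have h2 : ∑ k ∈ range N, a ((k : ℤ) - N) + ∑ l ∈ range N, a ((N : ℤ) - l) =
        ∑ m ∈ range (N + 1), ((2 * (a m).re : ℝ) : ℂ) := by
      rw [sum_range_succ' (fun m : ℕ => ((2 * (a m).re : ℝ) : ℂ)), ← sum_add_distrib,
        ← sum_range_reflect (fun m : ℕ => ((2 * (a ((m + 1 : ℕ) : ℤ)).re : ℝ) : ℂ))]
      simp only [Nat.cast_zero, h0, Complex.zero_re, mul_zero, Complex.ofReal_zero, add_zero]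
      refine sum_congr rfl fun k hk => ?_
      have hk := mem_range.1 hk
      rw [add_comm, show ((N - 1 - k + 1 : ℕ) : ℤ) = (N : ℤ) - k by omega, ← h1, neg_sub]
    have h3 : ∀ m : ℕ, ((((N + 1 : ℕ) : ℝ) - m) * (2 * (a m).re) : ℝ) =
        ((N : ℝ) - m) * (2 * (a m).re) + 2 * (a m).re := fun m => by push_cast; ring
    have hL : ∑ k ∈ range (N + 1), ∑ l ∈ range (N + 1), a ((k : ℤ) - l) =
        (∑ k ∈ range N, ∑ l ∈ range N, a ((k : ℤ) - l)) +
          (∑ k ∈ range N, a ((k : ℤ) - N) + ∑ l ∈ range N, a ((N : ℤ) - l)) := by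
      simp only [sum_range_succ, sum_add_distrib, sub_self, h0]
      ring
    have hR : ∑ m ∈ range (N + 1), (((N + 1 : ℕ) : ℝ) - m) * (2 * (a m).re) =
        ∑ m ∈ range N, ((N : ℝ) - m) * (2 * (a m).re) + ∑ m ∈ range (N + 1), 2 * (a m).re := by
      simp only [h3, sum_add_distrib]
      rw [sum_range_succ (fun m : ℕ => ((N : ℝ) - m) * (2 * (a m).re))]
      simp
    rw [hL, ih, h2, hR, Complex.ofReal_add, Complex.ofReal_sum (s := range (N + 1))]

/-- The Fejér mean of the square wave is bounded by one. -/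
lemma fejer_le (N : ℕ) (x : ℝ) :
    |∑ m ∈ range N, ((N : ℝ) - m) * (2 * (sw m * fe (m * x)).re)| ≤ N := by
  set g : ℝ → ℂ := fun y => ∑ k ∈ range N, ∑ l ∈ range N,
    fe (((k : ℤ) - l : ℤ) * x) * fe (-(((k : ℤ) - l : ℤ) * y)) with hg
  set p : ℝ → ℝ := fun y => ‖∑ k ∈ range N, fe (k * (x - y))‖ ^ 2 with hp
  have hgp : ∀ y, g y = (p y : ℂ) := fun y => by
    simp only [hg, hp]
    rw [Complex.ofReal_pow, ← Complex.mul_conj', map_sum, sum_mul_sum]
    refine sum_congr rfl fun k _ => sum_congr rfl fun l _ => ?_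
    rw [conj_fe, ← fe_add, ← fe_add]
    congr 1
    push_cast
    ring
  have hint : ∀ a b : ℝ, ∫ y in a..b, g y = ∑ k ∈ range N, ∑ l ∈ range N,
      fe (((k : ℤ) - l : ℤ) * x) * ∫ y in a..b, fe (-(((k : ℤ) - l : ℤ) * y)) := by
    intro a b
    have hcont : ∀ c : ℝ, Continuous fun y => fe (-(c * y)) := fun c =>
      continuous_fe.comp (by fun_prop)
    simp only [hg]
    have h2 : ∀ k l : ℕ, Continuous fun y =>
        fe (((k : ℤ) - l : ℤ) * x) * fe (-(((k : ℤ) - l : ℤ) * y)) :=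
      fun k l => continuous_const.mul (hcont _)
    rw [integral_finsetSum fun k _ =>
      (continuous_finsetSum (range N) fun l _ => h2 k l).intervalIntegrable a b]
    refine sum_congr rfl fun k _ => ?_
    rw [integral_finsetSum fun l _ => (h2 k l).intervalIntegrable a b]
    exact sum_congr rfl fun l _ => intervalIntegral.integral_const_mul _ _
  have hpc : Continuous p := by
    rw [hp]
    exact (continuous_finsetSum _ fun k _ => continuous_fe.comp (by fun_prop)).norm.pow 2
  have hone : ∫ y in (0 : ℝ)..1, p y = N := by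
    apply Complex.ofReal_injective
    rw [← intervalIntegral.integral_ofReal]
    simp only [← hgp]
    rw [hint, Complex.ofReal_natCast]
    have : ∀ n : ℤ, ∫ y in (0 : ℝ)..1, fe (-((n : ℝ) * y)) = if n = 0 then 1 else 0 := fun n => by
      split_ifs with h
      · subst h; simp [fe_zero]
      · rw [integral_fe h, mul_one, mul_zero, neg_zero, fe_zero,
          show -((n : ℤ) : ℝ) = ((-n : ℤ) : ℝ) by push_cast; ring, fe_int, sub_self, zero_div]
    simp only [this, sub_eq_zero, Nat.cast_inj, mul_ite, mul_one, mul_zero]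
    simp [fe_zero, filter_true_of_mem fun a (h : a ∈ range N) => mem_range.1 h]
  have hval : (((∫ y in (0 : ℝ)..1 / 2, p y) - ∫ y in (1 / 2 : ℝ)..1, p y : ℝ) : ℂ) =
      ((∑ m ∈ range N, ((N : ℝ) - m) * (2 * (sw m * fe (m * x)).re) : ℝ) : ℂ) := by
    rw [Complex.ofReal_sub, ← intervalIntegral.integral_ofReal, ← intervalIntegral.integral_ofReal]
    simp only [← hgp]
    rw [hint, hint, ← sum_sub_distrib]
    simp only [← sum_sub_distrib, ← mul_sub]
    have hd := double_sum (fun n => sw n * fe (n * x)) (by simp [sw_zero]) (fun n => by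
      rw [conj_sw, map_mul, conj_fe]
      push_cast
      ring_nf) N
    simp only [Int.cast_natCast] at hd
    rw [← hd]
    refine sum_congr rfl fun k _ => sum_congr rfl fun l _ => ?_
    rw [mul_comm]; rfl
  rw [← Complex.ofReal_injective hval, ← hone,
    ← integral_add_adjacent_intervals (hpc.intervalIntegrable 0 (1 / 2))
      (hpc.intervalIntegrable (1 / 2) 1)]
  have h1 : 0 ≤ ∫ y in (0 : ℝ)..1 / 2, p y :=
    integral_nonneg (by norm_num) fun y _ => sq_nonneg _
  have h2 : 0 ≤ ∫ y in (1 / 2 : ℝ)..1, p y :=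
    integral_nonneg (by norm_num) fun y _ => sq_nonneg _
  rw [abs_le]
  constructor <;> linarith

lemma hasSum_odd :
    HasSum (fun n : ℕ => if Odd n then (1 : ℝ) / (n : ℝ) ^ 2 else 0) (Real.pi ^ 2 / 8) := by
  have he : HasSum (fun n : ℕ => if Even n then (1 : ℝ) / (n : ℝ) ^ 2 else 0)
      (Real.pi ^ 2 / 6 / 4) := by
    refine (Function.Injective.hasSum_iff (g := fun k : ℕ => 2 * k)
      (mul_right_injective₀ two_ne_zero) fun n hn => ?_).1 ?_
    · rw [if_neg]
      exact fun h => hn ⟨n / 2, Nat.two_mul_div_two_of_even h⟩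
    · refine (hasSum_zeta_two.div_const 4).congr_fun fun k => ?_
      simp only [Function.comp_apply, if_pos (even_two_mul k)]
      push_cast
      rw [mul_pow, div_div]
      ring
  have := hasSum_zeta_two.sub he
  rw [show Real.pi ^ 2 / 6 - Real.pi ^ 2 / 6 / 4 = Real.pi ^ 2 / 8 by ring] at this
  refine this.congr_fun fun n => ?_
  by_cases h : Even n
  · simp [h, Nat.not_odd_iff_even.2 h]
  · simp [h, Nat.not_even_iff_odd.1 h]

end Wave

open Wave

theorem waveGoal : WaveGoal := by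
  intro κ hκ
  set f : ℕ → ℝ := fun n => if Odd n then (1 : ℝ) / (n : ℝ) ^ 2 else 0
  have hlim := (hasSum_odd.tendsto_sum_nat).eventually
    (eventually_ge_nhds (a := Real.pi ^ 2 / 8) (b := Real.pi ^ 2 / 8 * (1 - κ / 2))
      (by nlinarith [sq_pos_of_pos Real.pi_pos]))
  obtain ⟨M, hM⟩ := hlim.exists
  set N : ℕ := M + 1 + ⌈4 * (M : ℝ) / κ⌉₊ with hN
  have hN0 : (0 : ℝ) < N := by rw [hN]; push_cast; positivity
  have hNM : (M : ℝ) / N ≤ κ / 4 := by
    rw [div_le_iff₀ hN0]
    have h1 := Nat.le_ceil (4 * (M : ℝ) / κ)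
    rw [div_le_iff₀ hκ] at h1
    rw [hN]
    push_cast
    nlinarith
  have hc : ∀ m ∈ (range N).filter Odd,
      ‖((((N : ℝ) - m) / N : ℝ) : ℂ) * sw m‖ = ((N : ℝ) - m) / N * (2 / (Real.pi * m)) := by
    intro m hm
    simp only [mem_filter, mem_range] at hm
    rw [norm_mul, norm_sw_odd hm.2, Complex.norm_real, Real.norm_of_nonneg
      (div_nonneg (sub_nonneg.2 (by exact_mod_cast hm.1.le)) hN0.le)]
  refine ⟨(range N).filter Odd, fun m => ((((N : ℝ) - m) / N : ℝ) : ℂ) * sw m,
    fun m hm => (mem_filter.1 hm).2, fun x => ?_, fun m hm => ?_, ?_⟩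
  · have h := fejer_le N x
    have heq : ∑ m ∈ (range N).filter Odd,
        2 * (((((N : ℝ) - m) / N : ℝ) : ℂ) * sw m * fe (m * x)).re =
        (∑ m ∈ range N, ((N : ℝ) - m) * (2 * (sw m * fe (m * x)).re)) / N := by
      rw [sum_div, sum_filter]
      refine sum_congr rfl fun m _ => ?_
      split_ifs with ho
      · rw [mul_assoc, Complex.re_ofReal_mul]; ring
      · rw [sw_even (n := (m : ℤ)) (by exact_mod_cast Nat.not_odd_iff_even.1 ho)]; simp
    rw [heq, abs_div, abs_of_pos hN0, div_le_one hN0]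
    exact h
  · rw [hc m hm]
    refine mul_le_of_le_one_left (by positivity) ?_
    rw [div_le_one hN0]
    linarith [Nat.cast_nonneg (α := ℝ) m]
  · rcases le_or_gt 1 κ with hk | hk
    · exact (sub_nonpos.2 hk).trans (sum_nonneg fun m _ => by positivity)
    calc 1 - κ ≤ (1 - κ / 4) ^ 2 * (8 / Real.pi ^ 2) * ∑ n ∈ range M, f n := by
          refine le_trans ?_ (mul_le_mul_of_nonneg_left hM (by positivity))
          have : (1 - κ / 4) ^ 2 * (8 / Real.pi ^ 2) * (Real.pi ^ 2 / 8 * (1 - κ / 2)) =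
              (1 - κ / 4) ^ 2 * (1 - κ / 2) := by
            field_simp
          rw [this]
          nlinarith [sq_nonneg κ, mul_nonneg (sq_nonneg κ) (sub_nonneg.2 hk.le)]
      _ ≤ ∑ m ∈ (range M).filter Odd, 2 * ‖((((N : ℝ) - m) / N : ℝ) : ℂ) * sw m‖ ^ 2 := by
          rw [mul_sum, sum_filter]
          refine sum_le_sum fun m hm => ?_
          simp only [f]
          split_ifs with ho
          · have hmM : m < M := mem_range.1 hm
            rw [hc m (mem_filter.2 ⟨mem_range.2 (by omega), ho⟩)]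
            have h1 : 1 - κ / 4 ≤ ((N : ℝ) - m) / N := by
              rw [sub_div, div_self hN0.ne']
              have := div_le_div_of_nonneg_right (Nat.cast_le.2 hmM.le : (m : ℝ) ≤ M) hN0.le
              linarith
            have h2 := pow_le_pow_left₀ (by linarith) h1 2
            have hm0 : (0 : ℝ) < m := Nat.cast_pos.2 ho.pos
            calc (1 - κ / 4) ^ 2 * (8 / Real.pi ^ 2) * (1 / (m : ℝ) ^ 2) ≤
                (((N : ℝ) - m) / N) ^ 2 * (8 / Real.pi ^ 2) * (1 / (m : ℝ) ^ 2) := by gcongr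
              _ = 2 * (((N : ℝ) - m) / N * (2 / (Real.pi * m))) ^ 2 := by ring
          · simp
      _ ≤ _ := sum_le_sum_of_subset_of_nonneg
          (filter_subset_filter _ (range_subset_range.2 (by omega))) fun m _ _ => by positivity

theorem eulerGoal : EulerGoal := by
  intro P hP
  let f : ℕ →* ℝ :=
    { toFun := fun n => 1 / (n : ℝ) ^ 2
      map_one' := by simp
      map_mul' := fun a b => by push_cast; ring }
  have hf : ∀ {p : ℕ}, p.Prime → ‖f p‖ < 1 := fun {p} hp => by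
    have : (2 : ℝ) ≤ p := by exact_mod_cast hp.two_le
    simp only [f, MonoidHom.coe_mk, OneHom.coe_mk]
    rw [Real.norm_of_nonneg (by positivity), div_lt_one (by positivity)]
    nlinarith
  have h := (EulerProduct.summable_and_hasSum_factoredNumbers_prod_filter_prime_geometric hf P).2
  rw [filter_true_of_mem fun p hp => (hP p hp).1] at h
  have h' := hasSum_subtype_iff_indicator.1 h
  have hle : ∏ p ∈ P, (1 - f p)⁻¹ ≤ Real.pi ^ 2 / 8 := by
    refine hasSum_le (fun n => ?_) h' hasSum_odd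
    by_cases hn : n ∈ Nat.factoredNumbers P
    · rw [Set.indicator_of_mem hn, if_pos]
      · rfl
      · rw [← Nat.not_even_iff_odd, even_iff_two_dvd]
        exact fun h2 => absurd (hP 2 (Nat.mem_factoredNumbers'.1 hn 2 Nat.prime_two h2)).2 (by decide)
    · rw [Set.indicator_of_notMem hn]
      split_ifs <;> positivity
  have hpi := Real.pi_pos
  rw [div_mul_eq_mul_div, div_le_one (by positivity)]
  calc 8 * ∏ p ∈ P, (1 - 1 / (p : ℝ) ^ 2)⁻¹ ≤ 8 * (Real.pi ^ 2 / 8) :=
        mul_le_mul_of_nonneg_left hle (by norm_num)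
    _ = Real.pi ^ 2 := by ring

end Vale.Agent.P110.Exist
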