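import Vale.Agent.P110.Exist.Main

/-! The final statement in standard notation. -/

namespace Vale.Agent.P110.Exist

open Finset

theorem circle_of_ultraflatGoal (h : UltraflatGoal) :
    ∀ c : ℝ, 0 < c → ∀ N₀ : ℕ, ∃ N : ℕ, N₀ ≤ N ∧ ∃ ε : Fin N → ℝ, (∀ k, ε k = 1 ∨ ε k = -1) ∧
      ∀ z : ℂ, ‖z‖ = 1 → (1 - c) * Real.sqrt N ≤ ‖∑ k, (ε k : ℂ) * z ^ (k : ℕ)‖ ∧
        ‖∑ k, (ε k : ℂ) * z ^ (k : ℕ)‖ ≤ (1 + c) * Real.sqrt N := by
  intro c hc N₀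
  obtain ⟨N, hN, b, hb⟩ := h c hc N₀
  refine ⟨N, hN, fun k => signSeq b k, fun k => ?_, fun z hz => ?_⟩
  · simp only [signSeq, dif_pos k.isLt]
    split_ifs <;> simp
  · obtain ⟨θ, rfl⟩ := (Complex.norm_eq_one_iff z).1 hz
    have he : ∑ k : Fin N, (signSeq b k : ℂ) * Complex.exp (θ * Complex.I) ^ (k : ℕ) =
        evalP (signSeq b) N θ := by
      rw [evalP, ← Fin.sum_univ_eq_sum_range]
      refine sum_congr rfl fun k _ => ?_
      rw [← Complex.exp_nat_mul]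
      congr 2; ring
    rw [he]
    exact hb θ

end Vale.Agent.P110.Exist
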