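import Vale.Agent.P110.Exist.Defs

/-! Følner sets for the maps `ξ ↦ kξ + i` in `ℤ/ℓ` (`PROOF.md`, module Folner).

The points are `x/Q` and their mirrors `-1 - x/Q`, where `x = λ(X + j)`, `λ` runs through a box in
the divisors of `Q` and `j` through an interval. -/

namespace Vale.Agent.P110.Exist.Folner

open Finset

/-- The product of the odd primes up to `K`. -/
def base (K : ℕ) : ℕ := ∏ p ∈ (range (K + 1)).filter (fun p => p.Prime ∧ Odd p), p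

theorem card_divisors_prod_pow (s : Finset ℕ) (hs : ∀ p ∈ s, p.Prime) (n : ℕ) :
    ((∏ p ∈ s, p) ^ n).divisors.card = (n + 1) ^ s.card := by
  induction s using Finset.induction with
  | empty => simp
  | insert a t ha ih =>
    have hc : Nat.Coprime (a ^ n) ((∏ p ∈ t, p) ^ n) := by
      refine Nat.Coprime.pow n n (Nat.Coprime.prod_right fun p hp => ?_)
      exact (Nat.coprime_primes (hs a (mem_insert_self _ _)) (hs p (mem_insert_of_mem hp))).2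
        (fun h => ha (h ▸ hp))
    rw [prod_insert ha, mul_pow, hc.card_divisors_mul, ih fun p hp => hs p (mem_insert_of_mem hp),
      card_insert_of_notMem ha, Nat.divisors_prime_pow (hs a (mem_insert_self _ _)), card_map,
      card_range, pow_succ]
    ring

theorem base_pos (K : ℕ) : 0 < base K := prod_pos fun _ hp => (mem_filter.1 hp).2.1.pos

theorem dvd_base_pow {K k : ℕ} (hk : Odd k) (hkK : k ≤ K) : k ∣ base K ^ K := by
  have hk0 : k ≠ 0 := fun h => by simp [h] at hk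
  rw [← Nat.factorization_le_iff_dvd hk0 (pow_ne_zero _ (base_pos K).ne')]
  intro p
  rw [Nat.factorization_pow, Finsupp.smul_apply, smul_eq_mul]
  by_cases hp : p ∈ k.primeFactors
  · obtain ⟨hpp, hpk, -⟩ := Nat.mem_primeFactors.1 hp
    have hpm : p ∣ base K := dvd_prod_of_mem _ (mem_filter.2
      ⟨mem_range.2 (by have := Nat.le_of_dvd (Nat.pos_of_ne_zero hk0) hpk; omega), hpp,
        hk.of_dvd_nat hpk⟩)
    have h1 := hpp.factorization_pos_of_dvd (base_pos K).ne' hpm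
    calc k.factorization p ≤ K := (Nat.factorization_lt p hk0).le.trans hkK
      _ ≤ K * (base K).factorization p := Nat.le_mul_of_pos_right _ h1
  · rw [← Nat.support_factorization, Finsupp.notMem_support_iff] at hp
    simp [hp]

/-- Multipliers `Gδ`, `δ ∣ M`. -/
def mult (G M : ℕ) : Finset ℕ := M.divisors.image (G * ·)

theorem card_mult_le (G M : ℕ) : (mult G M).card ≤ M.divisors.card := card_image_le

/-- Integers `λ(X + j)` with `-a ≤ j < T + a`. -/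
noncomputable def ints (Lam : Finset ℕ) (X T a : ℤ) : Finset ℤ :=
  (Lam ×ˢ Ico (-a) (T + a)).image fun lj => (lj.1 : ℤ) * (X + lj.2)

theorem card_ints_le (Lam : Finset ℕ) (X : ℤ) (T a : ℕ) :
    (ints Lam X T a).card ≤ Lam.card * (T + 2 * a) := by
  refine card_image_le.trans (le_of_eq ?_)
  rw [card_product, Int.card_Ico]
  congr 1
  omega

theorem mem_shift {Lam Lam' : Finset ℕ} {X T a a' Q : ℤ} {x : ℤ} (hx : x ∈ ints Lam X T a)
    {k : ℕ} {i : ℤ} (hmul : ∀ l ∈ Lam, k * l ∈ Lam' ∧ ((k * l : ℕ) : ℤ) ∣ Q)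
    (hpos : ∀ l ∈ Lam, 0 < k * l) (hQ : 0 ≤ Q) (ha : a + |i| * Q ≤ a') :
    (k : ℤ) * x + i * Q ∈ ints Lam' X T a' := by
  obtain ⟨⟨l, j⟩, hlj, rfl⟩ := mem_image.1 hx
  obtain ⟨hl, hj⟩ := mem_product.1 hlj
  obtain ⟨hmem, s, hs⟩ := hmul l hl
  refine mem_image.2 ⟨(k * l, j + i * s), mem_product.2 ⟨hmem, ?_⟩, ?_⟩
  · have hb : |i * s| ≤ |i| * Q := by
      rw [abs_mul]
      refine mul_le_mul_of_nonneg_left ?_ (abs_nonneg i)
      have h1 : |Q| = ((k * l : ℕ) : ℤ) * |s| := by rw [hs, abs_mul, Nat.abs_cast]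
      rw [abs_of_nonneg hQ] at h1
      rw [h1]
      exact le_mul_of_one_le_left (abs_nonneg s) (by exact_mod_cast hpos l hl)
    have := abs_le.1 hb
    simp only [mem_Ico] at hj ⊢
    constructor <;> linarith
  · push_cast at hs ⊢
    rw [hs]; ring

variable (ℓ Q : ℕ)

/-- The residue `x/Q`. -/
def pt (x : ℤ) : ZMod ℓ := (x : ZMod ℓ) * (Q : ZMod ℓ)⁻¹

/-- The symmetrised residues of a set of integers. -/
def sym (Xs : Finset ℤ) : Finset (ZMod ℓ) := Xs.image (pt ℓ Q) ∪ Xs.image fun x => -1 - pt ℓ Q x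

variable {ℓ Q}

theorem mem_sym {Xs : Finset ℤ} {y : ZMod ℓ} :
    y ∈ sym ℓ Q Xs ↔ (∃ x ∈ Xs, pt ℓ Q x = y) ∨ ∃ x ∈ Xs, -1 - pt ℓ Q x = y := by
  simp [sym]

theorem sym_symm (Xs : Finset ℤ) : ∀ y ∈ sym ℓ Q Xs, -1 - y ∈ sym ℓ Q Xs := fun y hy => by
  rcases mem_sym.1 hy with ⟨x, hx, rfl⟩ | ⟨x, hx, rfl⟩
  · exact mem_sym.2 (Or.inr ⟨x, hx, rfl⟩)
  · exact mem_sym.2 (Or.inl ⟨x, hx, by ring⟩)

theorem card_sym_le (Xs : Finset ℤ) : (sym ℓ Q Xs).card ≤ 2 * Xs.card := by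
  refine (card_union_le _ _).trans ?_
  have h1 : (Xs.image (pt ℓ Q)).card ≤ Xs.card := card_image_le
  have h2 : (Xs.image fun x => -1 - pt ℓ Q x).card ≤ Xs.card := card_image_le
  omega

theorem pt_mul_Q (hQ : (Q : ZMod ℓ) ≠ 0) [Fact ℓ.Prime] (x : ℤ) :
    pt ℓ Q x * (Q : ZMod ℓ) = (x : ZMod ℓ) := by
  rw [pt, mul_assoc, inv_mul_cancel₀ hQ, mul_one]

theorem pt_affine (hQ : (Q : ZMod ℓ) ≠ 0) [Fact ℓ.Prime] (k x i : ℤ) :
    (k : ZMod ℓ) * pt ℓ Q x + i = pt ℓ Q (k * x + i * Q) := by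
  simp only [pt]
  push_cast
  rw [add_mul, mul_assoc (i : ZMod ℓ), mul_inv_cancel₀ hQ, mul_one, mul_assoc]

theorem card_sym [Fact ℓ.Prime] (hQ : 0 < Q) {Xs : Finset ℤ} {M : ℤ}
    (hX : ∀ x ∈ Xs, 0 ≤ x ∧ x ≤ M) (hℓ : 2 * M + Q < ℓ) (hne : (Q : ZMod ℓ) ≠ 0) :
    (sym ℓ Q Xs).card = 2 * Xs.card := by
  have hinj : Set.InjOn (pt ℓ Q) Xs := fun x hx y hy h => by
    have h1 : (x : ZMod ℓ) = y := by rw [← pt_mul_Q hne, ← pt_mul_Q hne, h]
    have hx' := hX x hx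
    have hy' := hX y hy
    have h2 := (ZMod.intCast_eq_intCast_iff' _ _ _).1 h1
    rwa [Int.emod_eq_of_lt hx'.1 (by omega), Int.emod_eq_of_lt hy'.1 (by omega)] at h2
  rw [sym, card_union_of_disjoint, card_image_of_injOn hinj,
    card_image_of_injOn (fun x hx y hy h => hinj hx hy (by simpa using h)), two_mul]
  rw [disjoint_left]
  intro z hz hz'
  obtain ⟨x, hx, rfl⟩ := mem_image.1 hz
  obtain ⟨y, hy, h⟩ := mem_image.1 hz'
  have h1 : (((x + Q + y : ℤ)) : ZMod ℓ) = 0 := by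
    push_cast
    rw [← pt_mul_Q hne x, ← pt_mul_Q hne y, ← h]
    ring
  have h2 := (ZMod.intCast_zmod_eq_zero_iff_dvd _ _).1 h1
  have hx' := hX x hx
  have hy' := hX y hy
  have := Int.le_of_dvd (by omega) h2
  omega

/-- Affine maps with `|i| ≤ K` act on symmetrised sets if they act with `|i| ≤ 2K` on one side. -/
theorem sym_affine [Fact ℓ.Prime] (hne : (Q : ZMod ℓ) ≠ 0) {A B : Finset ℤ} {k : ℕ} {K i : ℤ}
    (hk : (k : ℤ) ≤ K) (hk1 : 1 ≤ k) (hi : |i| ≤ K)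
    (h : ∀ x ∈ A, ∀ i' : ℤ, |i'| ≤ 2 * K → (k : ℤ) * x + i' * Q ∈ B) :
    ∀ y ∈ sym ℓ Q A, (k : ZMod ℓ) * y + i ∈ sym ℓ Q B := by
  intro y hy
  have hi' := abs_le.1 hi
  rcases mem_sym.1 hy with ⟨x, hx, rfl⟩ | ⟨x, hx, rfl⟩
  · refine mem_sym.2 (Or.inl ⟨(k : ℤ) * x + i * Q, h x hx i (by omega), ?_⟩)
    rw [← pt_affine hne]; simp
  · refine mem_sym.2 (Or.inr ⟨(k : ℤ) * x + ((k : ℤ) - 1 - i) * Q,
      h x hx _ (abs_le.2 ⟨by omega, by omega⟩), ?_⟩)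
    rw [← pt_affine hne]; push_cast; ring

/-- The box of multipliers of level `e`. -/
def L1 (K A : ℕ) : Finset ℕ := mult (base K ^ K) (base K ^ (A + 2 * K))

def L2 (K A : ℕ) : Finset ℕ := mult (base K ^ K * base K ^ K) (base K ^ (A + K))

def L0 (K A : ℕ) : Finset ℕ := mult (base K ^ K * base K ^ K) (base K ^ A)

theorem mem_L1 {K A l : ℕ} (hl : l ∈ L1 K A) : l ∣ base K ^ (A + 3 * K) ∧ 0 < l := by
  obtain ⟨δ, hδ, rfl⟩ := mem_image.1 hl
  refine ⟨?_, Nat.mul_pos (pow_pos (base_pos K) _) (Nat.pos_of_mem_divisors hδ)⟩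
  rw [show A + 3 * K = K + (A + 2 * K) by ring, pow_add]
  exact mul_dvd_mul_left _ (Nat.dvd_of_mem_divisors hδ)

theorem L0_subset_L2 (K A : ℕ) : L0 K A ⊆ L2 K A := image_subset_image
  (Nat.divisors_subset_of_dvd (pow_ne_zero _ (base_pos K).ne') (pow_dvd_pow _ (Nat.le_add_right _ _)))

theorem mul_mem_L2 {K A k l : ℕ} (hk : Odd k) (hkK : k ≤ K) (hl : l ∈ L0 K A) : k * l ∈ L2 K A := by
  obtain ⟨δ, hδ, rfl⟩ := mem_image.1 hl
  refine mem_image.2 ⟨k * δ, Nat.mem_divisors.2 ⟨?_, pow_ne_zero _ (base_pos K).ne'⟩, by ring⟩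
  rw [add_comm A K, pow_add]
  exact mul_dvd_mul (dvd_base_pow hk hkK) (Nat.dvd_of_mem_divisors hδ)

theorem div_mem_L1 {K A k l : ℕ} (hk : Odd k) (hkK : k ≤ K) (hl : l ∈ L2 K A) :
    ∃ l' ∈ L1 K A, l = k * l' := by
  obtain ⟨δ, hδ, rfl⟩ := mem_image.1 hl
  obtain ⟨g, hg⟩ := dvd_base_pow hk hkK
  refine ⟨base K ^ K * (g * δ), mem_image.2
    ⟨g * δ, Nat.mem_divisors.2 ⟨?_, pow_ne_zero _ (base_pos K).ne'⟩, rfl⟩, ?_⟩
  · rw [show A + 2 * K = K + (A + K) by ring, pow_add]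
    exact mul_dvd_mul (Dvd.intro_left k hg.symm) (Nat.dvd_of_mem_divisors hδ)
  · conv_lhs => arg 1; arg 2; rw [hg]
    ring

theorem L2_subset_L1 (K A : ℕ) : L2 K A ⊆ L1 K A := fun l hl => by
  obtain ⟨δ, hδ, rfl⟩ := mem_image.1 hl
  refine mem_image.2 ⟨base K ^ K * δ, Nat.mem_divisors.2 ⟨?_, pow_ne_zero _ (base_pos K).ne'⟩,
    by ring⟩
  rw [show A + 2 * K = K + (A + K) by ring, pow_add]
  exact mul_dvd_mul_left _ (Nat.dvd_of_mem_divisors hδ)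

/-- Bounds for the integers used. -/
theorem ints_bound {Q X M P T K : ℤ} {Lam : Finset ℕ} {a : ℤ} (hQ : 1 ≤ Q) (hP : 0 ≤ P)
    (hT : 0 ≤ T) (hK : 0 ≤ K) (hLam : ∀ l ∈ Lam, 0 < l ∧ (l : ℤ) ≤ Q) (ha : a ≤ 6 * K * Q)
    (hX : (Q + 1) * (T + 12 * K * Q + P + 1) ≤ X) (hM : Q * (X + T + 6 * K * Q + P) ≤ M) :
    ∀ x ∈ ints Lam X T a, Q * P < x ∧ 0 ≤ x ∧ x ≤ M := by
  intro x hx
  obtain ⟨⟨l, j⟩, hlj, rfl⟩ := mem_image.1 hx
  obtain ⟨hl, hj⟩ := mem_product.1 hlj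
  simp only [mem_Ico] at hj
  obtain ⟨hl0, h1⟩ := hLam l hl
  have h2 : (1 : ℤ) ≤ l := by exact_mod_cast hl0
  have hKQ : 0 ≤ K * Q := by positivity
  have h3 : Q * P < X + j := by nlinarith
  have hQP : 0 ≤ Q * P := by positivity
  refine ⟨by nlinarith, by nlinarith, ?_⟩
  calc (l : ℤ) * (X + j) ≤ Q * (X + j) := by nlinarith
    _ ≤ M := by nlinarith

theorem card_ints {Lam : Finset ℕ} {X : ℤ} {T : ℕ}
    (hsep : ∀ l ∈ Lam, 0 < l ∧ (l : ℤ) * T < X) :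
    (ints Lam X T 0).card = Lam.card * T := by
  rw [ints, card_image_of_injOn, card_product, Int.card_Ico]
  · simp
  rintro ⟨l, j⟩ hlj ⟨l', j'⟩ hlj' he
  simp only [coe_product, Set.mem_prod, mem_coe, mem_Ico, neg_zero, add_zero] at hlj hlj'
  simp only at he
  have hll : l = l' := by
    rcases lt_trichotomy l l' with h | h | h
    · have : (l : ℤ) + 1 ≤ l' := by exact_mod_cast h
      have h5 := (hsep l hlj.1).2
      have h6 : (l : ℤ) * j ≤ (l : ℤ) * T := mul_le_mul_of_nonneg_left hlj.2.2.le (by positivity)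
      have hX0 : 0 ≤ X + j' := by
        have : (0 : ℤ) ≤ (l : ℤ) * T := by positivity
        linarith [hlj'.2.1]
      linarith [mul_le_mul_of_nonneg_right this hX0, hlj'.2.1,
        mul_nonneg (show (0 : ℤ) ≤ l by positivity) hlj'.2.1]
    · exact h
    · have : (l' : ℤ) + 1 ≤ l := by exact_mod_cast h
      have h5 := (hsep l' hlj'.1).2
      have h6 : (l' : ℤ) * j' ≤ (l' : ℤ) * T :=
        mul_le_mul_of_nonneg_left hlj'.2.2.le (by positivity)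
      have hX0 : 0 ≤ X + j := by
        have : (0 : ℤ) ≤ (l' : ℤ) * T := by positivity
        linarith [hlj.2.1]
      linarith [mul_le_mul_of_nonneg_right this hX0, hlj.2.1,
        mul_nonneg (show (0 : ℤ) ≤ l' by positivity) hlj.2.1]
  subst hll
  have := mul_left_cancel₀ (by exact_mod_cast (hsep l hlj.1).1.ne' : (l : ℤ) ≠ 0) he
  exact Prod.ext rfl (by linarith)

theorem ints_mono {Lam Lam' : Finset ℕ} {X T a a' : ℤ} (h : Lam ⊆ Lam') (ha : a ≤ a') :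
    ints Lam X T a ⊆ ints Lam' X T a' :=
  image_subset_image (product_subset_product h (Ico_subset_Ico (by linarith) (by linarith)))

theorem sym_mono {Xs Ys : Finset ℤ} (h : Xs ⊆ Ys) : sym ℓ Q Xs ⊆ sym ℓ Q Ys :=
  union_subset_union (image_subset_image h) (image_subset_image h)

theorem sym_union (Xs Ys : Finset ℤ) : sym ℓ Q (Xs ∪ Ys) = sym ℓ Q Xs ∪ sym ℓ Q Ys := by
  simp only [sym, image_union]
  exact union_union_union_comm _ _ _ _

theorem sym_pullback [Fact ℓ.Prime] (hne : (Q : ZMod ℓ) ≠ 0) {A B : Finset ℤ} {k : ℕ} {K i : ℤ}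
    (hk : (k : ℤ) ≤ K) (hk1 : 1 ≤ k) (hkz : (k : ZMod ℓ) ≠ 0) (hi : |i| ≤ K)
    (h : ∀ x ∈ B, ∀ i' : ℤ, |i'| ≤ 2 * K → ∃ z ∈ A, (k : ℤ) * z = x - i' * Q) :
    ∀ y, (k : ZMod ℓ) * y + i ∈ sym ℓ Q B → y ∈ sym ℓ Q A := by
  intro y hy
  have hi' := abs_le.1 hi
  rcases mem_sym.1 hy with ⟨x, hx, hxe⟩ | ⟨x, hx, hxe⟩
  · obtain ⟨z, hz, hze⟩ := h x hx i (abs_le.2 ⟨by omega, by omega⟩)
    refine mem_sym.2 (Or.inl ⟨z, hz, mul_left_cancel₀ hkz (add_right_cancel (b := (i : ZMod ℓ)) ?_)⟩)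
    have h1 := pt_affine hne (k : ℤ) z i
    rw [hze, sub_add_cancel, hxe] at h1
    simpa using h1
  · obtain ⟨z, hz, hze⟩ := h x hx ((k : ℤ) - 1 - i) (abs_le.2 ⟨by omega, by omega⟩)
    refine mem_sym.2 (Or.inr ⟨z, hz, mul_left_cancel₀ hkz (add_right_cancel (b := (i : ZMod ℓ)) ?_)⟩)
    have h1 := pt_affine hne (k : ℤ) z ((k : ℤ) - 1 - i)
    rw [hze, sub_add_cancel] at h1
    rw [← hxe, ← h1]
    push_cast
    ring

theorem card_union_reflect [Fact ℓ.Prime] (hne : (Q : ZMod ℓ) ≠ 0) {A B Z : Finset ℤ} {K c : ℤ}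
    (hc : |c| ≤ K) (hK : 1 ≤ K) (h : ∀ x ∈ A, ∀ i' : ℤ, |i'| ≤ 2 * K → x + i' * Q ∈ B) :
    (sym ℓ Q (A ∪ Z) ∪ (sym ℓ Q (A ∪ Z)).image fun x => (c : ZMod ℓ) - x).card ≤
      2 * B.card + 4 * Z.card := by
  all_goals
    have hc' := abs_le.1 hc
    have hsub : sym ℓ Q (A ∪ Z) ∪ (sym ℓ Q (A ∪ Z)).image (fun x => (c : ZMod ℓ) - x) ⊆
        sym ℓ Q B ∪ (sym ℓ Q Z ∪ (sym ℓ Q Z).image fun x => (c : ZMod ℓ) - x) := by
      intro y hy
      rw [sym_union] at hy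
      have hAB : A ⊆ B := fun x hx => by simpa using h x hx 0 (by simp; omega)
      rcases mem_union.1 hy with hy | hy
      · rcases mem_union.1 hy with h' | h'
        · exact mem_union_left _ (sym_mono hAB h')
        · exact mem_union_right _ (mem_union_left _ h')
      · obtain ⟨w, hw, rfl⟩ := mem_image.1 hy
        rcases mem_union.1 hw with h' | h'
        · refine mem_union_left _ ?_
          rcases mem_sym.1 h' with ⟨x, hx, rfl⟩ | ⟨x, hx, rfl⟩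
          · refine mem_sym.2 (Or.inr ⟨_, h x hx (-c - 1) (abs_le.2 ⟨by omega, by omega⟩), ?_⟩)
            have := pt_affine hne 1 x (-c - 1)
            simp only [one_mul, Int.cast_one] at this
            rw [← this]; push_cast; ring
          · refine mem_sym.2 (Or.inl ⟨_, h x hx (c + 1) (abs_le.2 ⟨by omega, by omega⟩), ?_⟩)
            have := pt_affine hne 1 x (c + 1)
            simp only [one_mul, Int.cast_one] at this
            rw [← this]; push_cast; ring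
        · exact mem_union_right _ (mem_union_right _ (mem_image_of_mem _ h'))
    refine (card_le_card hsub).trans ((card_union_le _ _).trans ?_)
    have h1 := card_sym_le (ℓ := ℓ) (Q := Q) B
    have h2 := card_sym_le (ℓ := ℓ) (Q := Q) Z
    have h3 : (sym ℓ Q Z ∪ (sym ℓ Q Z).image fun x => (c : ZMod ℓ) - x).card ≤
        (sym ℓ Q Z).card + (sym ℓ Q Z).card :=
      (card_union_le _ _).trans (Nat.add_le_add_left card_image_le _)
    omega

theorem pad_exists {ℓ P e : ℕ} (hP : Odd P) (hℓ : Odd ℓ) :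
    ∃ t < P, ∀ E : ℕ, E = 2 * (e + t) → E < ℓ → Nat.Coprime (ℓ - E) (2 * P) := by
  have : NeZero P := ⟨fun h => by simp [h] at hP⟩
  refine ⟨(((ℓ : ZMod P) - 2 * (e : ZMod P) - 1) * (2 : ZMod P)⁻¹).val, ZMod.val_lt _,
    fun E hE hlt => ?_⟩
  refine Nat.Coprime.mul_right ?_ ?_
  · rw [Nat.coprime_two_right, Nat.odd_sub hlt.le]
    exact iff_of_true hℓ (hE ▸ even_two_mul _)
  · have h2 : IsUnit (2 : ZMod P) := by
      have := (ZMod.isUnit_iff_coprime 2 P).2 ((Nat.coprime_two_left).2 hP)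
      simpa using this
    have hmod : ((ℓ - E : ℕ) : ZMod P) = 1 := by
      rw [Nat.cast_sub hlt.le, hE]
      push_cast
      rw [mul_add, ZMod.natCast_zmod_val, mul_left_comm, ZMod.mul_inv_of_unit _ h2]
      ring
    rw [← ZMod.isUnit_iff_coprime, hmod]
    exact isUnit_one

theorem fwd [Fact ℓ.Prime] {K A T k : ℕ} (hk : Odd k) (hkK : k ≤ K) {i : ℤ} (hi : |i| ≤ K)
    (hne : ((base K ^ (A + 3 * K) : ℕ) : ZMod ℓ) ≠ 0) (X : ℤ) :
    ∀ x ∈ sym ℓ (base K ^ (A + 3 * K)) (ints (L0 K A) X T 0),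
      (k : ZMod ℓ) * x + i ∈ sym ℓ (base K ^ (A + 3 * K))
        (ints (L2 K A) X T ((2 * K * base K ^ (A + 3 * K) : ℕ) : ℤ)) := by
  generalize hQ : base K ^ (A + 3 * K) = Q at *
  refine sym_affine hne (by exact_mod_cast hkK) hk.pos hi fun x hx i' hi' => ?_
  refine mem_shift (Lam' := L2 K A) hx (fun l hl => ⟨mul_mem_L2 hk hkK hl, ?_⟩)
    (fun l hl => (mem_L1 (L2_subset_L1 K A (mul_mem_L2 hk hkK hl))).2) (by positivity) ?_
  · exact Int.natCast_dvd_natCast.2 (hQ ▸ (mem_L1 (L2_subset_L1 K A (mul_mem_L2 hk hkK hl))).1)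
  · push_cast
    rw [zero_add]
    exact mul_le_mul_of_nonneg_right hi' (Int.natCast_nonneg Q)

theorem bwd [Fact ℓ.Prime] {K A T k : ℕ} (hk : Odd k) (hkK : k ≤ K) {i : ℤ} (hi : |i| ≤ K)
    (hne : ((base K ^ (A + 3 * K) : ℕ) : ZMod ℓ) ≠ 0) (X : ℤ) (Z : Finset ℤ)
    (hkz : (k : ZMod ℓ) ≠ 0) :
    ∀ y, (k : ZMod ℓ) * y + i ∈ sym ℓ (base K ^ (A + 3 * K))
        (ints (L2 K A) X T ((2 * K * base K ^ (A + 3 * K) : ℕ) : ℤ)) →
      y ∈ sym ℓ (base K ^ (A + 3 * K))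
        (ints (L1 K A) X T ((4 * K * base K ^ (A + 3 * K) : ℕ) : ℤ) ∪ Z) := by
  generalize hQ : base K ^ (A + 3 * K) = Q at *
  refine sym_pullback hne (by exact_mod_cast hkK) hk.pos hkz hi fun x hx i' hi'' => ?_
  obtain ⟨⟨l, j⟩, hlj, rfl⟩ := mem_image.1 hx
  obtain ⟨hl, hj⟩ := mem_product.1 hlj
  obtain ⟨l', hl', rfl⟩ := div_mem_L1 hk hkK hl
  obtain ⟨⟨q, hq⟩, hl0⟩ := mem_L1 (L2_subset_L1 K A hl)
  rw [hQ] at hq
  have hb : |i' * (q : ℤ)| ≤ 2 * K * Q := by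
    rw [abs_mul, Nat.abs_cast]
    exact mul_le_mul hi'' (by exact_mod_cast hq ▸ Nat.le_mul_of_pos_left q hl0) (by positivity)
      (by positivity)
  have hb' := abs_le.1 hb
  refine ⟨(l' : ℤ) * (X + (j - i' * q)), mem_union_left _ (mem_image.2 ⟨(l', j - i' * q),
    mem_product.2 ⟨hl', ?_⟩, rfl⟩), ?_⟩
  · simp only [mem_Ico] at hj ⊢
    push_cast at hj ⊢
    constructor <;> linarith
  · have hq' : (Q : ℤ) = (k : ℤ) * l' * q := by exact_mod_cast hq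
    rw [hq']; push_cast; ring

theorem shift1 {K A T : ℕ} {i : ℤ} (hi : |i| ≤ 2 * K) (X : ℤ) :
    ∀ x ∈ ints (L1 K A) X T ((4 * K * base K ^ (A + 3 * K) : ℕ) : ℤ),
      x + i * ((base K ^ (A + 3 * K) : ℕ) : ℤ) ∈
        ints (L1 K A) X T ((6 * K * base K ^ (A + 3 * K) : ℕ) : ℤ) := by
  generalize hQ : base K ^ (A + 3 * K) = Q
  intro x hx
  have h := mem_shift (k := 1) (Lam' := L1 K A) (Q := (Q : ℤ)) (i := i)
    (a' := ((6 * K * Q : ℕ) : ℤ)) hx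
    (fun l hl => ⟨by rw [one_mul]; exact hl,
      by rw [one_mul]; exact Int.natCast_dvd_natCast.2 (hQ ▸ (mem_L1 hl).1)⟩)
    (fun l hl => by rw [one_mul]; exact (mem_L1 hl).2) (Int.natCast_nonneg Q)
    (by push_cast; linarith [mul_le_mul_of_nonneg_right hi (Int.natCast_nonneg Q)])
  simpa using h

theorem folner_aux (K P h₀ A T : ℕ) (hK : 1 ≤ K) (hP : Odd P) (hT : h₀ ≤ T) :
    ∃ B Q : ℕ, ∀ ℓ : ℕ, ℓ.Prime → B ≤ ℓ → ∃ H H' E : Finset (ZMod ℓ),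
      h₀ ≤ H.card ∧ E.card ≤ B ∧
      (∀ x ∈ H, -1 - x ∈ H) ∧ (∀ x ∈ H', -1 - x ∈ H') ∧ (∀ x ∈ E, -1 - x ∈ E) ∧
      (∀ k : ℕ, Odd k → k ≤ K → ∀ i : ℤ, |i| ≤ K →
        (∀ x ∈ H, (k : ZMod ℓ) * x + i ∈ H') ∧
        ∀ x, (k : ZMod ℓ) * x + i ∈ H' → x ∈ E) ∧
      H.card = 2 * ((A + 1) ^ ((range (K + 1)).filter (fun p => p.Prime ∧ Odd p)).card * T) ∧
      Q = base K ^ (A + 3 * K) ∧
      (∀ c : ℤ, |c| ≤ K → (E ∪ E.image fun x => (c : ZMod ℓ) - x).card ≤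
        2 * ((A + 2 * K + 1) ^ ((range (K + 1)).filter (fun p => p.Prime ∧ Odd p)).card *
          (T + 12 * K * Q)) + 4 * P) ∧
      H'.card ≤ E.card ∧
      Nat.Coprime (ℓ - E.card) (2 * P) := by
  set r := ((range (K + 1)).filter (fun p => p.Prime ∧ Odd p)).card with hr
  set Q := base K ^ (A + 3 * K) with hQ
  have hQ0 : 0 < Q := pow_pos (base_pos K) _
  have hQz : (1 : ℤ) ≤ Q := by exact_mod_cast hQ0
  set X : ℤ := ((Q : ℤ) + 1) * (T + 12 * K * Q + P + 1) with hX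
  have hXQP : (Q : ℤ) * P ≤ (Q : ℤ) * (X + T + 6 * K * Q + P) := by
    have : (0 : ℤ) ≤ X := by positivity
    nlinarith [(by positivity : (0 : ℤ) ≤ (Q : ℤ) * X), (by positivity : (0 : ℤ) ≤ (Q : ℤ) * T),
      (by positivity : (0 : ℤ) ≤ (Q : ℤ) * (6 * K * Q))]
  set M : ℕ := ((Q : ℤ) * (X + T + 6 * K * Q + P)).toNat with hM
  have hMe : (Q : ℤ) * (X + T + 6 * K * Q + P) ≤ M := Int.self_le_toNat _
  have hdiv : ∀ n : ℕ, (base K ^ n).divisors.card = (n + 1) ^ r :=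
    card_divisors_prod_pow _ (fun p hp => (mem_filter.1 hp).2.1)
  have hL : ∀ Lam : Finset ℕ, Lam ⊆ L1 K A → ∀ l ∈ Lam, 0 < l ∧ (l : ℤ) ≤ Q := fun Lam hs l hl =>
    ⟨(mem_L1 (hs hl)).2, Int.ofNat_le.2 (Nat.le_of_dvd hQ0 (mem_L1 (hs hl)).1)⟩
  have hbd := fun (Lam : Finset ℕ) (hs : Lam ⊆ L1 K A) (a : ℤ) (ha : a ≤ 6 * (K : ℤ) * Q) =>
    ints_bound (X := X) (M := M) (T := (T : ℤ)) (K := (K : ℤ)) (P := (P : ℤ)) hQz (by positivity)
      (by positivity) (by positivity) (hL Lam hs) ha le_rfl hMe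
  set IE := ints (L1 K A) X T ((4 * K * Q : ℕ) : ℤ) with hIE
  set I0 := ints (L0 K A) X T (0 : ℤ) with hI0
  set I2 := ints (L2 K A) X T ((2 * K * Q : ℕ) : ℤ) with hI2
  have hwide : ∀ a : ℕ, a ≤ 6 * K * Q →
      (ints (L1 K A) X T (a : ℤ)).card ≤ (A + 2 * K + 1) ^ r * (T + 12 * K * Q) := fun a ha =>
    (card_ints_le _ _ _ _).trans (Nat.mul_le_mul ((card_mult_le _ _).trans (hdiv _).le)
      (by linarith))
  have hI0card : I0.card = (A + 1) ^ r * T := by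
    rw [hI0, card_ints fun l hl => ⟨(hL _ ((L0_subset_L2 K A).trans (L2_subset_L1 K A)) l hl).1, ?_⟩,
      L0, mult, card_image_of_injective _
        (mul_right_injective₀ (mul_ne_zero (pow_ne_zero _ (base_pos K).ne')
          (pow_ne_zero _ (base_pos K).ne'))), hdiv]
    have := (hL _ ((L0_subset_L2 K A).trans (L2_subset_L1 K A)) l hl).2
    rw [hX]
    nlinarith [(by positivity : (0 : ℤ) ≤ (K : ℤ) * Q), (by positivity : (0 : ℤ) ≤ (T : ℤ))]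
  refine ⟨2 * M + Q + K + 3 + (2 * ((A + 2 * K + 1) ^ r * (T + 12 * K * Q)) + 4 * P), Q,
    fun ℓ hℓp hℓ => ?_⟩
  have : Fact ℓ.Prime := ⟨hℓp⟩
  have hne : (Q : ZMod ℓ) ≠ 0 := by
    rw [Ne, CharP.cast_eq_zero_iff (ZMod ℓ) ℓ]
    intro h
    have := Nat.le_of_dvd hQ0 h
    omega
  obtain ⟨t, htP, htcop⟩ := pad_exists (ℓ := ℓ) (e := IE.card) hP (hℓp.odd_of_ne_two (by omega))
  set pads : Finset ℤ := (range t).image fun i : ℕ => (Q : ℤ) * i with hpads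
  have hpadb : ∀ x ∈ pads, 0 ≤ x ∧ x ≤ (Q : ℤ) * P := fun x hx => by
    obtain ⟨i, hi, rfl⟩ := mem_image.1 hx
    have : i ≤ P := ((mem_range.1 hi).trans htP).le
    exact ⟨by positivity, mul_le_mul_of_nonneg_left (by exact_mod_cast this) (by positivity)⟩
  have hM2 : (2 : ℤ) * M + Q < ℓ := by exact_mod_cast (by omega : 2 * M + Q < ℓ)
  have h4 : ((4 * K * Q : ℕ) : ℤ) ≤ 6 * (K : ℤ) * Q := by
    push_cast; nlinarith [(by positivity : (0 : ℤ) ≤ (K : ℤ) * Q)]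
  have h24 : ((2 * K * Q : ℕ) : ℤ) ≤ ((4 * K * Q : ℕ) : ℤ) :=
    Int.ofNat_le.2 (Nat.mul_le_mul_right _ (Nat.mul_le_mul_right _ (by norm_num)))
  have hIEb := hbd (L1 K A) subset_rfl _ h4
  have hEb : ∀ x ∈ IE ∪ pads, 0 ≤ x ∧ x ≤ (M : ℤ) := fun x hx => by
    rcases mem_union.1 hx with h | h
    · exact ⟨(hIEb x h).2.1, (hIEb x h).2.2⟩
    · exact ⟨(hpadb x h).1, (hpadb x h).2.trans (hXQP.trans hMe)⟩
  have hpcard : pads.card = t := by
    rw [hpads, card_image_of_injective _ fun a b hab => by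
      exact_mod_cast mul_left_cancel₀ (by exact_mod_cast hQ0.ne' : (Q : ℤ) ≠ 0) hab, card_range]
  have hcardE : (sym ℓ Q (IE ∪ pads)).card = 2 * (IE.card + t) := by
    rw [card_sym hQ0 hEb hM2 hne, card_union_of_disjoint, hpcard]
    exact disjoint_left.2 fun x hx hx' => absurd (hIEb x hx).1 (not_lt.2 (hpadb x hx').2)
  have hIEc := hwide (4 * K * Q) (by nlinarith)
  rw [← hIE] at hIEc
  have h0b := hbd (L0 K A) ((L0_subset_L2 K A).trans (L2_subset_L1 K A)) 0 (by positivity)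
  have hH : (sym ℓ Q I0).card = 2 * ((A + 1) ^ r * T) := by
    rw [card_sym hQ0 (fun x hx => ⟨(h0b x hx).2.1, (h0b x hx).2.2⟩) hM2 hne, hI0card]
  refine ⟨sym ℓ Q I0, sym ℓ Q I2, sym ℓ Q (IE ∪ pads), ?_, ?_, sym_symm _, sym_symm _, sym_symm _,
    fun k hk hkK i hi => ⟨?_, ?_⟩, hH, rfl, fun c hc => ?_, ?_, ?_⟩
  · rw [hH]
    have h1 : 1 ≤ (A + 1) ^ r := Nat.one_le_pow _ _ (by omega)
    nlinarith
  · rw [hcardE]; omega
  · exact fwd hk hkK (i := i) hi hne X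
  · exact bwd hk hkK (i := i) hi hne X pads (by
      rw [Ne, CharP.cast_eq_zero_iff (ZMod ℓ) ℓ]
      intro h
      have := Nat.le_of_dvd hk.pos h
      omega)
  · refine (card_union_reflect (K := (K : ℤ)) hne hc (by exact_mod_cast hK)
      (B := ints (L1 K A) X T ((6 * K * Q : ℕ) : ℤ))
      fun x hx i' hi' => shift1 hi' X x hx).trans ?_
    · have h6 := hwide (6 * K * Q) le_rfl
      rw [hpcard]
      omega
  · exact card_le_card (sym_mono ((ints_mono (L2_subset_L1 K A) h24).trans subset_union_left))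
  · exact htcop _ hcardE (lt_of_le_of_lt hcardE.le (by omega))

end Folner

theorem folnerGoal : FolnerGoal := by
  intro K₀ P h₀ κ hκ hP
  set K := K₀ + 1 with hKdef
  set κ' := min κ 1 with hκ'
  have hκ'0 : 0 < κ' := lt_min hκ zero_lt_one
  set r := ((Finset.range (K + 1)).filter (fun p => p.Prime ∧ Odd p)).card with hr
  have hlim : Filter.Tendsto (fun n : ℕ => (1 + 2 * (K : ℝ) * (1 / ((n : ℝ) + 1))) ^ r)
      Filter.atTop (nhds 1) := by
    have := ((tendsto_one_div_add_atTop_nhds_zero_nat (𝕜 := ℝ)).const_mul (2 * (K : ℝ))).const_add 1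
    simpa using this.pow r
  obtain ⟨A, hA⟩ := (hlim.eventually (eventually_le_nhds (by linarith : (1 : ℝ) < 1 + κ' / 4))).exists
  set Q := Folner.base K ^ (A + 3 * K) with hQ
  obtain ⟨T, hT⟩ := exists_nat_ge (max (max (h₀ : ℝ) 1) (4 * (12 * K * Q + 2 * P) / κ'))
  simp only [max_le_iff] at hT
  obtain ⟨B, Q', hB⟩ := Folner.folner_aux K P h₀ A T (by omega) hP (by exact_mod_cast hT.1.1)
  refine ⟨B, fun ℓ hℓ hBℓ => ?_⟩
  obtain ⟨H, H', E, h1, h2, h3, h4, h5, h6, hH, hQ', hu, hHE, hc⟩ := hB ℓ hℓ hBℓ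
  subst hQ'
  have hkey : ∀ c : ℤ, |c| ≤ K →
      ((E ∪ E.image fun x => (c : ZMod ℓ) - x).card : ℝ) ≤ (1 + κ) * H.card := by
    intro c hcK
    refine (Nat.cast_le.2 (hu c hcK)).trans ?_
    rw [hH, ← hr, ← hQ]
    push_cast
    set a : ℝ := ((A : ℝ) + 1) ^ r with ha
    have ha1 : 1 ≤ a := one_le_pow₀ (by linarith [(Nat.cast_nonneg A : (0 : ℝ) ≤ A)])
    have hb : ((A : ℝ) + 2 * K + 1) ^ r ≤ (1 + κ' / 4) * a := by
      have : ((A : ℝ) + 2 * K + 1) = (1 + 2 * (K : ℝ) * (1 / ((A : ℝ) + 1))) * ((A : ℝ) + 1) := by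
        field_simp; ring
      rw [this, mul_pow]
      exact mul_le_mul_of_nonneg_right hA (by positivity)
    have hT' : 4 * (12 * (K : ℝ) * Q + 2 * P) ≤ T * κ' := (div_le_iff₀ hκ'0).1 hT.2
    have hκ1 : κ' ≤ 1 := min_le_right _ _
    have hκ2 : κ' ≤ κ := min_le_left _ _
    have hQn : (0 : ℝ) ≤ 12 * (K : ℝ) * Q := by positivity
    have hP0 : (0 : ℝ) ≤ P := Nat.cast_nonneg P
    have hT0 : (0 : ℝ) ≤ T := Nat.cast_nonneg T
    calc 2 * (((A : ℝ) + 2 * K + 1) ^ r * ((T : ℝ) + 12 * K * Q)) + 4 * P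
        ≤ 2 * ((1 + κ' / 4) * a * ((T : ℝ) + 12 * K * Q)) + 4 * P := by gcongr
      _ ≤ (1 + κ) * (2 * (a * T)) := by
        have e1 : (P : ℝ) ≤ a * P := le_mul_of_one_le_left hP0 ha1
        have ha0 : (0 : ℝ) ≤ a := zero_le_one.trans ha1
        have e2 := mul_le_mul_of_nonneg_left hT' ha0
        have e3 := mul_nonneg (mul_nonneg ha0 hQn) (sub_nonneg.2 hκ1)
        have e4 := mul_nonneg (mul_nonneg ha0 hT0) (sub_nonneg.2 hκ2)
        nlinarith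
  have hE : (E.card : ℝ) ≤ (1 + κ) * H.card :=
    le_trans (Nat.cast_le.2 (Finset.card_le_card Finset.subset_union_left)) (hkey 0 (by simp))
  exact ⟨H, H', E, h1, h2, h3, h4, h5,
    fun k hk hk' i hi => h6 k hk (by omega) i (by omega),
    (Nat.cast_le.2 hHE).trans hE, hE, fun c hc' => hkey c (by omega), hc⟩

end Vale.Agent.P110.Exist
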