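import Mathlib.Topology.Instances.AddCircle.DenseSubgroup
import Mathlib.Topology.Algebra.Group.SubmonoidClosure
import Mathlib.Analysis.Normed.Group.AddCircle
import Mathlib.NumberTheory.Real.Irrational
import Mathlib.Analysis.SpecialFunctions.Log.Basic
import Mathlib.RingTheory.Coprime.Lemmas

/-! Density of `a α - b β` with large natural numbers `a, b`, and of `p^a / q^b`. -/

namespace Vale.Agent.P110.Exist

theorem exists_nat_combination {α β : ℝ} (hα : 0 < α) (hβ : 0 < β) (h : Irrational (α / β))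
    (x : ℝ) {ε : ℝ} (hε : 0 < ε) (B : ℕ) :
    ∃ a b : ℕ, B ≤ a ∧ B ≤ b ∧ |(a : ℝ) * α - b * β - x| < ε := by
  haveI : Fact (0 < β) := ⟨hβ⟩
  have hd : DenseRange (fun k : ℕ => k • (α : AddCircle β)) :=
    denseRange_zsmul_iff_nsmul.1 (AddCircle.denseRange_zsmul_coe_iff.2 h)
  obtain ⟨B', hB'⟩ := exists_nat_ge ((|x| + ε + B * β) / α)
  set B₁ := max B B' with hB₁
  obtain ⟨k, hk⟩ := Metric.denseRange_iff.1 hd ((x - B₁ * α : ℝ) : AddCircle β) ε hε
  rw [dist_comm, dist_eq_norm, ← AddCircle.coe_nsmul, ← AddCircle.coe_sub, AddCircle.norm_eq] at hk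
  set r : ℤ := round (β⁻¹ * (k • α - (x - B₁ * α))) with hr
  have e1 := abs_lt.1 hk
  rw [nsmul_eq_mul] at e1
  have hr0 : (B : ℝ) * β ≤ r * β := by
    rw [div_le_iff₀ hα] at hB'
    have h1 : (B' : ℝ) ≤ B₁ := by exact_mod_cast le_max_right B B'
    have h2 : (0 : ℝ) ≤ k * α := by positivity
    nlinarith [abs_nonneg x, le_abs_self x]
  have hr1 : (B : ℤ) ≤ r := by
    exact_mod_cast le_of_mul_le_mul_right hr0 hβ
  refine ⟨B₁ + k, r.toNat, le_trans (le_max_left B B') (Nat.le_add_right _ _), by omega, ?_⟩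
  have hcast : ((r.toNat : ℕ) : ℝ) = (r : ℝ) := by
    exact_mod_cast Int.toNat_of_nonneg (le_trans (by positivity) hr1)
  rw [hcast, abs_lt]
  push_cast
  constructor <;> linarith [e1.1, e1.2]

theorem irrational_log_div_log {p q : ℕ} (hp : 2 ≤ p) (hq : 2 ≤ q) (hpq : Nat.Coprime p q) :
    Irrational (Real.log p / Real.log q) := by
  rintro ⟨r, hr⟩
  have hlq : 0 < Real.log q := Real.log_pos (by exact_mod_cast hq)
  have hlp : 0 < Real.log p := Real.log_pos (by exact_mod_cast hp)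
  have hr0 : (0 : ℝ) < (r : ℝ) := by rw [hr]; positivity
  have hn : 0 < r.num := Rat.num_pos.2 (by exact_mod_cast hr0)
  have heq : (r.num : ℝ) * Real.log q = (r.den : ℝ) * Real.log p := by
    rw [Rat.cast_def, div_eq_div_iff (by positivity) hlq.ne'] at hr
    linarith
  have hnat : ((r.num.toNat : ℕ) : ℝ) = (r.num : ℝ) := by
    exact_mod_cast Int.toNat_of_nonneg hn.le
  rw [← hnat, ← Real.log_pow, ← Real.log_pow] at heq
  have h' := Real.log_injOn_pos (by simp only [Set.mem_Ioi]; positivity)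
    (by simp only [Set.mem_Ioi]; positivity) heq
  have h'' : q ^ r.num.toNat = p ^ r.den := by exact_mod_cast h'
  have hco : Nat.Coprime (p ^ r.den) (q ^ r.num.toNat) := Nat.Coprime.pow _ _ hpq
  rw [h'', Nat.coprime_self] at hco
  have : 2 ^ r.den ≤ p ^ r.den := Nat.pow_le_pow_left hp _
  have : 2 ^ 1 ≤ 2 ^ r.den := Nat.pow_le_pow_right (by norm_num) r.den_pos
  omega

/-- `p^a / q^b` with arbitrarily large exponents is dense in the positive reals. -/
theorem exists_pow_ratio {p q : ℕ} (hp : 2 ≤ p) (hq : 2 ≤ q) (hpq : Nat.Coprime p q)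
    {x : ℝ} (hx : 0 < x) {ε : ℝ} (hε : 0 < ε) (B : ℕ) :
    ∃ a b : ℕ, B ≤ a ∧ B ≤ b ∧
      |Real.log ((p : ℝ) ^ a / ((q : ℝ) ^ b)) - Real.log x| < ε ∧
      x * Real.exp (-ε) < (p : ℝ) ^ a / (q : ℝ) ^ b ∧
      (p : ℝ) ^ a / (q : ℝ) ^ b < x * Real.exp ε := by
  have hp' : (0 : ℝ) < p := by exact_mod_cast (show 0 < p by omega)
  have hq' : (0 : ℝ) < q := by exact_mod_cast (show 0 < q by omega)
  obtain ⟨a, b, ha, hb, h⟩ := exists_nat_combination (Real.log_pos (show (1 : ℝ) < p by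
    exact_mod_cast hp)) (Real.log_pos (show (1 : ℝ) < q by exact_mod_cast hq))
    (irrational_log_div_log hp hq hpq) (Real.log x) hε B
  rw [← Real.log_pow, ← Real.log_pow, ← Real.log_div (by positivity) (by positivity)] at h
  refine ⟨a, b, ha, hb, h, ?_, ?_⟩
  · rw [← Real.log_lt_log_iff (by positivity) (by positivity), Real.log_mul hx.ne' (Real.exp_pos _).ne',
      Real.log_exp]
    linarith [(abs_lt.1 h).1]
  · rw [← Real.log_lt_log_iff (by positivity) (by positivity), Real.log_mul hx.ne' (Real.exp_pos _).ne',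
      Real.log_exp]
    linarith [(abs_lt.1 h).2]

end Vale.Agent.P110.Exist
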