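import Vale.Agent.P110.Exist.Defs

/-! Assembly: designs, analysis and filling give ultraflat sign polynomials. -/

namespace Vale.Agent.P110.Exist

theorem signSeq_nearFlat {M : ℕ} {η : ℝ} {x : ℕ → ℝ} (hx : ∀ k < M, x k = 1 ∨ x k = -1)
    (hf : NearFlat x M η) : ∃ b : Fin M → Bool, NearFlat (signSeq b) M η := by
  refine ⟨fun k => decide (x k = 1), fun θ => ?_⟩
  have h : evalP (signSeq fun k : Fin M => decide (x k = 1)) M θ = evalP x M θ := by
    refine Finset.sum_congr rfl fun k hk => ?_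
    have hk' := Finset.mem_range.1 hk
    simp only [signSeq, dif_pos hk']
    rcases hx k hk' with h | h <;> norm_num [h]
  rw [h]
  exact hf θ

theorem ultraflat_of_modules (hD : DesignGoal) (hA : AnalysisGoal) (hF : FillGoal) :
    UltraflatGoal := by
  intro η hη N₀
  obtain ⟨κ, hκ, N₁, hfill⟩ := hF η hη
  obtain ⟨κ', hκ', hana⟩ := hA κ hκ
  obtain ⟨ι, i1, i2, hd⟩ := hD κ' hκ'
  obtain ⟨N, hN, hcore⟩ := @hana ι i1 i2 hd (max N₀ N₁)
  obtain ⟨M, hM, x, hx, hflat⟩ := hfill N ((le_max_right _ _).trans hN) hcore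
  exact ⟨M, ((le_max_left _ _).trans hN).trans hM, signSeq_nearFlat hx hflat⟩

end Vale.Agent.P110.Exist
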